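import Vale.Agent.P247.H515.K2C

/-! P247 / K2B, part 1: calculus lemmas (Cauchy-Schwarz on an interval, decay from a differential
inequality, polar coordinates, Stokes on a rectangle). helper515. -/

open MeasureTheory Real Set Filter Topology Metric
open scoped ContDiff

noncomputable section

set_option linter.unusedSectionVars false
set_option linter.unusedVariables false

namespace Vale.Agent.P247.H515

open Vale.Agent.P247.H74

theorem cs_interval {g : ℝ → ℝ} (hg : Continuous g) {T : ℝ} (hT : 0 < T) :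
    (∫ x in (0 : ℝ)..T, g x) ^ 2 ≤ T * ∫ x in (0 : ℝ)..T, g x ^ 2 := by
  set I := ∫ x in (0 : ℝ)..T, g x with hI
  have hi : ∀ f : ℝ → ℝ, Continuous f → IntervalIntegrable f volume 0 T := fun f hf =>
    hf.intervalIntegrable _ _
  have h1 : 0 ≤ ∫ x in (0 : ℝ)..T, (g x - I / T) ^ 2 :=
    intervalIntegral.integral_nonneg hT.le fun x _ => sq_nonneg _
  have h2 : ∫ x in (0 : ℝ)..T, (g x - I / T) ^ 2 =
      (∫ x in (0 : ℝ)..T, g x ^ 2) - 2 * (I / T) * I + T * (I / T) ^ 2 := by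
    have e : ∀ x, (g x - I / T) ^ 2 = g x ^ 2 - 2 * (I / T) * g x + (I / T) ^ 2 := fun x => by ring
    simp only [e]
    rw [intervalIntegral.integral_add (hi _ (by fun_prop)) (hi _ (by fun_prop)),
      intervalIntegral.integral_sub (hi _ (by fun_prop)) (hi _ (by fun_prop)),
      intervalIntegral.integral_const_mul, intervalIntegral.integral_const, sub_zero, smul_eq_mul,
      ← hI]
  rw [h2] at h1
  have h3 : T * (I / T) ^ 2 = I ^ 2 / T := by field_simp
  have h4 : 2 * (I / T) * I = 2 * (I ^ 2 / T) := by field_simp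
  rw [h3, h4] at h1
  have h5 : I ^ 2 / T ≤ ∫ x in (0 : ℝ)..T, g x ^ 2 := by linarith
  rwa [div_le_iff₀ hT, mul_comm] at h5

/-- decay from a differential inequality -/
theorem decay {F : ℝ → ℝ} (hF : Continuous F) {K : ℝ} (hK : 0 < K)
    (h : ∀ r ∈ Ioc (0 : ℝ) 1, (∫ s in (0 : ℝ)..r, F s) ≤ K * (r * F r)) {ρ : ℝ}
    (hρ : 0 < ρ) (hρ1 : ρ ≤ 1) :
    (∫ s in (0 : ℝ)..ρ, F s) ≤ ρ ^ (1 / K) * ∫ s in (0 : ℝ)..1, F s := by
  set E : ℝ → ℝ := fun r => ∫ s in (0 : ℝ)..r, F s with hE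
  have hdE : ∀ r, HasDerivAt E (F r) r := fun r =>
    intervalIntegral.integral_hasDerivAt_right (hF.intervalIntegrable _ _)
      hF.stronglyMeasurable.stronglyMeasurableAtFilter hF.continuousAt
  have hd : ∀ r ∈ Icc ρ 1, HasDerivAt (fun r => r ^ (-(1 / K)) * E r)
      ((-(1 / K)) * r ^ (-(1 / K) - 1) * E r + r ^ (-(1 / K)) * F r) r := by
    intro r hr
    have hr0 : 0 < r := hρ.trans_le hr.1
    have h1 := Real.hasDerivAt_rpow_const (p := -(1 / K)) (Or.inl hr0.ne')
    exact h1.mul (hdE r)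
  have hmono : MonotoneOn (fun r => r ^ (-(1 / K)) * E r) (Icc ρ 1) := by
    refine monotoneOn_of_deriv_nonneg (convex_Icc _ _)
      (fun r hr => (hd r hr).continuousAt.continuousWithinAt)
      (fun r hr => (hd r (interior_subset hr)).differentiableAt.differentiableWithinAt)
      fun r hr => ?_
    have hr' := interior_subset hr
    have hr0 : 0 < r := hρ.trans_le hr'.1
    rw [(hd r hr').deriv]
    have h1 : r ^ (-(1 / K)) = r ^ (-(1 / K) - 1) * r := by
      rw [← Real.rpow_add_one hr0.ne']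
      congr 1
      ring
    rw [h1]
    have h2 : -(1 / K) * r ^ (-(1 / K) - 1) * E r + r ^ (-(1 / K) - 1) * r * F r =
        r ^ (-(1 / K) - 1) * (1 / K * (K * (r * F r) - E r)) := by
      field_simp
      ring
    rw [h2]
    have h3 := h r ⟨hr0, hr'.2⟩
    have h4 : 0 ≤ K * (r * F r) - E r := by
      show 0 ≤ K * (r * F r) - ∫ s in (0 : ℝ)..r, F s
      linarith
    have h5 : 0 ≤ r ^ (-(1 / K) - 1) := Real.rpow_nonneg hr0.le _
    positivity
  have h1 := hmono ⟨le_rfl, hρ1⟩ ⟨hρ1, le_rfl⟩ hρ1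
  simp only [Real.one_rpow, one_mul] at h1
  have h2 : E ρ = ρ ^ (1 / K) * (ρ ^ (-(1 / K)) * E ρ) := by
    rw [← mul_assoc, ← Real.rpow_add hρ, add_neg_cancel, Real.rpow_zero, one_mul]
  show E ρ ≤ ρ ^ (1 / K) * E 1
  rw [h2]
  exact mul_le_mul_of_nonneg_left h1 (Real.rpow_nonneg hρ.le _)

/-- polar coordinates around `z` -/
def pol (z : ℂ) (q : P2) : ℂ := z + q.1 * Complex.exp (q.2 * Complex.I)

theorem pol_smooth (z : ℂ) : ContDiff ℝ ∞ (pol z) := by
  unfold pol
  have h1 : ContDiff ℝ ∞ fun q : P2 => ((q.1 : ℝ) : ℂ) :=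
    Complex.ofRealCLM.contDiff.comp contDiff_fst
  have h2 : ContDiff ℝ ∞ fun q : P2 => ((q.2 : ℝ) : ℂ) :=
    Complex.ofRealCLM.contDiff.comp contDiff_snd
  exact contDiff_const.add (h1.mul (Complex.contDiff_exp.comp (h2.mul contDiff_const)))

theorem hasFDerivAt_pol (z : ℂ) (q : P2) : HasFDerivAt (pol z)
    ((ContinuousLinearMap.fst ℝ ℝ ℝ).smulRight (Complex.exp (q.2 * Complex.I)) +
      (ContinuousLinearMap.snd ℝ ℝ ℝ).smulRight
        (q.1 * (Complex.I * Complex.exp (q.2 * Complex.I)))) q := by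
  have h1 : HasFDerivAt (fun q : P2 => ((q.1 : ℝ) : ℂ))
      (Complex.ofRealCLM.comp (ContinuousLinearMap.fst ℝ ℝ ℝ)) q :=
    Complex.ofRealCLM.hasFDerivAt.comp q hasFDerivAt_fst
  have h2 : HasFDerivAt (fun q : P2 => ((q.2 : ℝ) : ℂ) * Complex.I)
      ((Complex.ofRealCLM.comp (ContinuousLinearMap.snd ℝ ℝ ℝ)).smulRight Complex.I) q := by
    have := (Complex.ofRealCLM.hasFDerivAt.comp q
      (hasFDerivAt_snd (𝕜 := ℝ) (p := q))).mul_const Complex.I
    refine this.congr_fderiv (ContinuousLinearMap.ext fun v => ?_)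
    simp [mul_comm]
  have h3 := (h1.mul h2.cexp).const_add z
  refine h3.congr_fderiv ?_
  apply ContinuousLinearMap.ext
  rintro ⟨a, b⟩
  simp
  ring

theorem pol_two_pi (z : ℂ) (s : ℝ) : pol z (s, 2 * π) = pol z (s, 0) := by
  simp [pol, Complex.exp_two_pi_mul_I]

theorem pol_periodic (z : ℂ) (s : ℝ) : Function.Periodic (fun θ => pol z (s, θ)) (2 * π) := by
  intro θ
  simp only [pol]
  push_cast
  rw [add_mul, Complex.exp_periodic (θ * Complex.I)]

/-- polar coordinates on a disc -/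
theorem polar_disc {g : ℂ → ℝ} (hg : Continuous g) (z : ℂ) {ρ : ℝ} (hρ : 0 ≤ ρ) :
    ∫ w in closedBall z ρ, g w =
      ∫ s in (0 : ℝ)..ρ, ∫ θ in (0 : ℝ)..2 * π, s * g (pol z (s, θ)) := by
  -- translate
  have h1 : ∫ w in closedBall z ρ, g w = ∫ w, (closedBall (0 : ℂ) ρ).indicator
      (fun w => g (z + w)) w := by
    rw [← integral_indicator measurableSet_closedBall, ← integral_add_left_eq_self _ z]
    refine integral_congr_ae (Eventually.of_forall fun w => ?_)
    simp only [indicator, mem_closedBall, dist_self_add_left, dist_zero_right]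
  rw [h1, ← Complex.integral_comp_polarCoord_symm, polarCoord_target]
  set G : P2 → ℝ := fun q => q.1 * g (pol z q) with hG
  have hGc : Continuous G := continuous_fst.mul (hg.comp (pol_smooth z).continuous)
  have h2 : ∀ p ∈ Ioi (0 : ℝ) ×ˢ Ioo (-π) π, p.1 • (closedBall (0 : ℂ) ρ).indicator
      (fun w => g (z + w)) (Complex.polarCoord.symm p) =
      (Iic ρ ×ˢ (univ : Set ℝ)).indicator G p := by
    rintro ⟨s, θ⟩ ⟨hs, hθ⟩
    have hs0 : 0 < s := hs
    have hn : ‖Complex.polarCoord.symm (s, θ)‖ = s := by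
      rw [Complex.norm_polarCoord_symm, abs_of_pos hs0]
    have hp : z + Complex.polarCoord.symm (s, θ) = pol z (s, θ) := by
      rw [Complex.polarCoord_symm_apply, pol, Complex.exp_mul_I]
      simp
    by_cases h : s ≤ ρ
    · have hm : ((s, θ) : ℝ × ℝ) ∈ Iic ρ ×ˢ (univ : Set ℝ) := ⟨h, mem_univ _⟩
      rw [indicator_of_mem (mem_closedBall_zero_iff.2 (hn.trans_le h)), indicator_of_mem hm, hp]
      rfl
    · rw [indicator_of_notMem (fun h' => h (hn ▸ mem_closedBall_zero_iff.1 h')),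
        indicator_of_notMem (fun h' => h h'.1), smul_zero]
  rw [setIntegral_congr_fun (measurableSet_Ioi.prod measurableSet_Ioo) h2,
    setIntegral_indicator (measurableSet_Iic.prod MeasurableSet.univ)]
  have h3 : (Ioi (0 : ℝ) ×ˢ Ioo (-π) π) ∩ (Iic ρ ×ˢ (univ : Set ℝ)) = Ioc 0 ρ ×ˢ Ioo (-π) π := by
    ext ⟨a, b⟩
    simp only [mem_inter_iff, mem_prod, mem_Ioi, mem_Ioo, mem_Iic, mem_univ, and_true, mem_Ioc]
    tauto
  rw [h3, Measure.volume_eq_prod, setIntegral_prod _ ((hGc.continuousOn.integrableOn_compact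
    (isCompact_Icc.prod isCompact_Icc)).mono_set (prod_mono Ioc_subset_Icc_self
      Ioo_subset_Icc_self)), intervalIntegral.integral_of_le hρ]
  refine setIntegral_congr_fun measurableSet_Ioc fun s hs => ?_
  show ∫ θ in Ioo (-π) π, G (s, θ) = ∫ θ in (0 : ℝ)..2 * π, s * g (pol z (s, θ))
  have hper : Function.Periodic (fun θ => G (s, θ)) (2 * π) := fun θ => by
    show s * g (pol z (s, θ + 2 * π)) = s * g (pol z (s, θ))
    have := pol_periodic z s θ
    simp only at this
    rw [this]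
  have h4 := hper.intervalIntegral_add_eq (-π) 0
  rw [show -π + 2 * π = π by ring, zero_add] at h4
  rw [← integral_Ioc_eq_integral_Ioo, ← intervalIntegral.integral_of_le (by linarith [pi_pos]), h4]

/-- **Stokes on a rectangle** -/
theorem stokes_rect {V : P2 → R4} (hV : ContDiff ℝ ∞ V) {Λ : R4 → R4 →L[ℝ] ℝ}
    (hΛ : ContDiff ℝ ∞ Λ) (a₁ a₂ b₁ b₂ : ℝ) :
    (∫ x in a₁..b₁, ∫ y in a₂..b₂, (fderiv ℝ Λ (V (x, y)) (ds V (x, y)) (dt V (x, y)) -
      fderiv ℝ Λ (V (x, y)) (dt V (x, y)) (ds V (x, y)))) =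
    (((∫ x in a₁..b₁, -(Λ (V (x, b₂)) (ds V (x, b₂)))) -
      ∫ x in a₁..b₁, -(Λ (V (x, a₂)) (ds V (x, a₂)))) +
      ∫ y in a₂..b₂, Λ (V (b₁, y)) (dt V (b₁, y))) -
      ∫ y in a₂..b₂, Λ (V (a₁, y)) (dt V (a₁, y)) := by
  have hV1 := smooth_fderiv hV
  have key : ∀ (b q : P2), HasFDerivAt (fun q => Λ (V q) (fderiv ℝ V q b))
      ((Λ (V q)).comp ((ContinuousLinearMap.apply ℝ R4 b).comp (fderiv ℝ (fderiv ℝ V) q)) +
        ((fderiv ℝ Λ (V q)).comp (fderiv ℝ V q)).flip (fderiv ℝ V q b)) q := by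
    intro b q
    have h1 : HasFDerivAt (fun y => Λ (V y)) ((fderiv ℝ Λ (V q)).comp (fderiv ℝ V q)) q :=
      HasFDerivAt.comp (g := Λ) q (smooth_diff hΛ (V q)).hasFDerivAt
        (smooth_diff hV q).hasFDerivAt
    have h2 : HasFDerivAt (fun y => fderiv ℝ V y b)
        ((ContinuousLinearMap.apply ℝ R4 b).comp (fderiv ℝ (fderiv ℝ V) q)) q :=
      HasFDerivAt.comp (g := ContinuousLinearMap.apply ℝ R4 b) q
        (ContinuousLinearMap.apply ℝ R4 b).hasFDerivAt (smooth_diff hV1 q).hasFDerivAt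
    exact h1.clm_apply h2
  have hcont : ∀ b : P2, Continuous fun q => Λ (V q) (fderiv ℝ V q b) := fun b =>
    continuous_iff_continuousAt.2 fun q => (key b q).continuousAt
  have hc1 : Continuous fun q => fderiv ℝ Λ (V q) (ds V q) (dt V q) -
      fderiv ℝ Λ (V q) (dt V q) (ds V q) := by
    have e1 : Continuous fun q => fderiv ℝ Λ (V q) :=
      (smooth_fderiv hΛ).continuous.comp hV.continuous
    have e2 : ∀ b, Continuous fun q => fderiv ℝ V q b := fun b =>
      hV1.continuous.clm_apply continuous_const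
    exact ((e1.clm_apply (e2 (1, 0))).clm_apply (e2 (0, 1))).sub
      ((e1.clm_apply (e2 (0, 1))).clm_apply (e2 (1, 0)))
  have hdiv := integral2_divergence_prod_of_hasFDerivAt
    (fun q => Λ (V q) (fderiv ℝ V q (0, 1))) (fun q => -(Λ (V q) (fderiv ℝ V q (1, 0))))
    _ _ a₁ a₂ b₁ b₂ (hcont _).continuousOn (hcont _).neg.continuousOn
    (fun q _ => key (0, 1) q) (fun q _ => (key (1, 0) q).neg) ?_
  · refine Eq.trans ?_ hdiv
    refine intervalIntegral.integral_congr fun x _ => intervalIntegral.integral_congr fun y _ => ?_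
    simp only [ds, dt, add_apply, neg_apply, ContinuousLinearMap.comp_apply,
      ContinuousLinearMap.flip_apply, ContinuousLinearMap.apply_apply]
    rw [second_symm hV (x, y) (1, 0) (0, 1)]
    ring
  · refine (hc1.continuousOn.integrableOn_compact (isCompact_uIcc.prod isCompact_uIcc)).congr_fun
      (fun q _ => ?_) (measurableSet_uIcc.prod measurableSet_uIcc)
    simp only [ds, dt, add_apply, neg_apply, ContinuousLinearMap.comp_apply,
      ContinuousLinearMap.flip_apply, ContinuousLinearMap.apply_apply]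
    rw [second_symm hV q (1, 0) (0, 1)]
    ring

end Vale.Agent.P247.H515
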