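import Vale.Agent.P247.H515.B1

/-! P247 / K2B, part 2: tameness, the isoperimetric inequality, energy on unit discs.
helper515. -/

open MeasureTheory Real Set Filter Topology Metric
open scoped ContDiff

noncomputable section

set_option linter.unusedSectionVars false
set_option linter.unusedVariables false

namespace Vale.Agent.P247.H515

open Vale.Agent.P247.H74

/-! ### values of closed forms -/

theorem cover4 (x : R4) : ∃ n : Fin 4 → ℤ, (fun i => x i + n i) ∈ Icc (0 : R4) 1 := by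
  refine ⟨fun i => -⌊x i⌋, fun i => ?_, fun i => ?_⟩
  · have := Int.floor_le (x i)
    simp only [Pi.zero_apply]
    push_cast
    linarith
  · have := Int.lt_floor_add_one (x i)
    simp only [Pi.one_apply]
    push_cast
    linarith

theorem bd_lam (a : CForm) : Bd a.lam := by
  refine bd_of_cover a.lam_smooth (isCompact_Icc (a := (0 : R4)) (b := 1)) fun x => ?_
  obtain ⟨n, hn⟩ := cover4 x
  exact ⟨fun i => (n i : ℝ), hn, fun y => a.lam_per n y⟩

theorem fderiv_lam_per (a : CForm) (n : Fin 4 → ℤ) (x : R4) :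
    fderiv ℝ a.lam (fun i => x i + n i) = fderiv ℝ a.lam x := by
  have h1 : (fun x : R4 => a.lam (x + fun i => (n i : ℝ))) = a.lam := by
    funext x
    exact a.lam_per n x
  have h2 := fderiv_comp_add_right (𝕜 := ℝ) (f := a.lam) (x := x) (fun i => (n i : ℝ))
  rw [h1] at h2
  exact h2.symm

theorem val_per (a : CForm) (n : Fin 4 → ℤ) (x u v : R4) :
    a.val (fun i => x i + n i) u v = a.val x u v := by
  unfold CForm.val
  rw [fderiv_lam_per]

theorem kap_antisymm (a : CForm) (u v : R4) : a.κ v u = -a.κ u v := by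
  have h := a.κ_self (u + v)
  simp only [map_add, add_apply, a.κ_self] at h
  linarith

theorem tame_const (D : Data) : ∃ c > 0, ∀ x u, c * ‖u‖ ^ 2 ≤ D.om.val x u (D.J x u) := by
  have hcont : Continuous fun q : R4 × R4 => D.om.val q.1 q.2 (D.J q.1 q.2) := by
    unfold CForm.val
    have hJ : Continuous fun q : R4 × R4 => D.J q.1 q.2 :=
      (D.J_smooth.continuous.comp continuous_fst).clm_apply continuous_snd
    have hl : Continuous fun q : R4 × R4 => fderiv ℝ D.om.lam q.1 :=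
      (smooth_fderiv D.om.lam_smooth).continuous.comp continuous_fst
    have hk : Continuous fun q : R4 × R4 => D.om.κ q.2 := D.om.κ.continuous.comp continuous_snd
    exact ((hk.clm_apply hJ).add ((hl.clm_apply continuous_snd).clm_apply hJ)).sub
      ((hl.clm_apply hJ).clm_apply continuous_snd)
  have hne : (Icc (0 : R4) 1 ×ˢ sphere (0 : R4) 1).Nonempty := by
    obtain ⟨v, hv⟩ := NormedSpace.sphere_nonempty (E := R4) (x := 0) (r := 1) |>.2 zero_le_one
    exact ⟨(0, v), ⟨⟨le_rfl, zero_le_one⟩, hv⟩⟩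
  obtain ⟨q, hq, hmin⟩ := (isCompact_Icc.prod (isCompact_sphere (0 : R4) 1)).exists_isMinOn hne
    hcont.continuousOn
  have hq0 : q.2 ≠ 0 := by
    intro h
    have := mem_sphere_zero_iff_norm.1 hq.2
    rw [h, norm_zero] at this
    exact zero_ne_one this
  refine ⟨_, D.tame q.1 q.2 hq0, fun x u => ?_⟩
  set c := D.om.val q.1 q.2 (D.J q.1 q.2) with hc
  have h1 : ∀ x v, ‖v‖ = 1 → c ≤ D.om.val x v (D.J x v) := by
    intro x v hv
    obtain ⟨n, hn⟩ := cover4 x
    have h2 := hmin (show ((fun i => x i + n i, v) : R4 × R4) ∈ _ from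
      ⟨hn, mem_sphere_zero_iff_norm.2 hv⟩)
    simp only [mem_ofPred_eq] at h2
    rw [D.J_per, val_per] at h2
    exact h2
  rcases eq_or_ne u 0 with rfl | hu
  · simp [CForm.val]
  · have hu' : ‖u‖ ≠ 0 := norm_ne_zero_iff.2 hu
    have h3 := h1 x (‖u‖⁻¹ • u) (by rw [norm_smul, norm_inv, norm_norm, inv_mul_cancel₀ hu'])
    have h4 : D.om.val x (‖u‖⁻¹ • u) (D.J x (‖u‖⁻¹ • u)) =
        ‖u‖⁻¹ ^ 2 * D.om.val x u (D.J x u) := by
      simp only [CForm.val, map_smul, smul_apply, smul_eq_mul]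
      ring
    rw [h4] at h3
    calc c * ‖u‖ ^ 2 ≤ (‖u‖⁻¹ ^ 2 * D.om.val x u (D.J x u)) * ‖u‖ ^ 2 :=
          mul_le_mul_of_nonneg_right h3 (sq_nonneg _)
      _ = _ := by field_simp

/-- the primitive vanishing at `p` -/
def prim (a : CForm) (p x : R4) : R4 →L[ℝ] ℝ := (1 / 2 : ℝ) • a.κ (x - p) + (a.lam x - a.lam p)

theorem hasFDerivAt_prim (a : CForm) (p x : R4) :
    HasFDerivAt (prim a p) ((1 / 2 : ℝ) • a.κ + fderiv ℝ a.lam x) x := by
  have h1 : HasFDerivAt (fun x : R4 => a.κ (x - p)) a.κ x := by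
    have := a.κ.hasFDerivAt.comp x ((hasFDerivAt_id x).sub_const p)
    exact this
  exact (h1.const_smul (1 / 2 : ℝ)).add ((smooth_diff a.lam_smooth x).hasFDerivAt.sub_const _)

theorem prim_smooth (a : CForm) (p : R4) : ContDiff ℝ ∞ (prim a p) := by
  have h1 : ContDiff ℝ ∞ fun x => a.κ (x - p) :=
    a.κ.contDiff.comp (contDiff_id.sub contDiff_const)
  exact (h1.const_smul (1 / 2 : ℝ)).add (a.lam_smooth.sub contDiff_const)

theorem prim_val (a : CForm) (p x u v : R4) :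
    fderiv ℝ (prim a p) x u v - fderiv ℝ (prim a p) x v u = a.val x u v := by
  rw [(hasFDerivAt_prim a p x).fderiv]
  simp only [add_apply, smul_apply, smul_eq_mul, CForm.val]
  rw [kap_antisymm a u v]
  ring

theorem prim_le (a : CForm) : ∃ B : ℝ, 0 ≤ B ∧ ∀ p x, ‖prim a p x‖ ≤ B * ‖x - p‖ := by
  obtain ⟨L, hL⟩ := (bd_lam a).bd1
  have hL0 : 0 ≤ L := (norm_nonneg _).trans (hL 0)
  refine ⟨1 / 2 * ‖a.κ‖ + L, by positivity, fun p x => ?_⟩
  have h1 : ‖a.lam x - a.lam p‖ ≤ L * ‖x - p‖ :=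
    Convex.norm_image_sub_le_of_norm_fderiv_le (fun z _ => smooth_diff a.lam_smooth z)
      (fun z _ => hL z) convex_univ (mem_univ _) (mem_univ _)
  calc ‖prim a p x‖ ≤ ‖(1 / 2 : ℝ) • a.κ (x - p)‖ + ‖a.lam x - a.lam p‖ := norm_add_le _ _
    _ ≤ 1 / 2 * (‖a.κ‖ * ‖x - p‖) + L * ‖x - p‖ := by
        rw [norm_smul]
        refine add_le_add ?_ h1
        rw [show ‖(1 / 2 : ℝ)‖ = 1 / 2 by norm_num]
        exact mul_le_mul_of_nonneg_left (a.κ.le_opNorm _) (by norm_num)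
    _ = _ := by ring

/-! ### `J`-holomorphic maps -/

theorem JH_lin {D : Data} {u : ℂ → R4} (h : JH D u) (w ζ : ℂ) :
    fderiv ℝ u w ζ = ζ.re • fderiv ℝ u w 1 + ζ.im • D.J (u w) (fderiv ℝ u w 1) := by
  rw [← h.2 w, ← map_smul, ← map_smul, ← map_add]
  congr 1
  apply Complex.ext <;> simp

theorem JH_mul_I {D : Data} {u : ℂ → R4} (h : JH D u) (w ζ : ℂ) :
    fderiv ℝ u w (Complex.I * ζ) = D.J (u w) (fderiv ℝ u w ζ) := by
  rw [JH_lin h w (Complex.I * ζ), JH_lin h w ζ, map_add, map_smul, map_smul, D.J_sq]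
  simp
  abel

theorem abs_re_le_one {ζ : ℂ} (hζ : ‖ζ‖ = 1) : |ζ.re| ≤ 1 := hζ ▸ Complex.abs_re_le_norm ζ

theorem abs_im_le_one {ζ : ℂ} (hζ : ‖ζ‖ = 1) : |ζ.im| ≤ 1 := hζ ▸ Complex.abs_im_le_norm ζ

theorem norm_comb_le {a b : ℝ} (ha : |a| ≤ 1) (hb : |b| ≤ 1) {T : R4 →L[ℝ] R4} {B : ℝ}
    (hT : ‖T‖ ≤ B) (v : R4) : ‖a • v + b • T v‖ ≤ (1 + B) * ‖v‖ := by
  have h1 : ‖a • v‖ ≤ 1 * ‖v‖ := by
    rw [norm_smul]; exact mul_le_mul_of_nonneg_right ha (norm_nonneg _)
  have h2 : ‖b • T v‖ ≤ 1 * (B * ‖v‖) := by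
    rw [norm_smul]
    exact mul_le_mul hb ((T.le_opNorm v).trans (mul_le_mul_of_nonneg_right hT (norm_nonneg _)))
      (norm_nonneg _) zero_le_one
  calc _ ≤ ‖a • v‖ + ‖b • T v‖ := norm_add_le _ _
    _ ≤ 1 * ‖v‖ + 1 * (B * ‖v‖) := add_le_add h1 h2
    _ = _ := by ring

theorem norm_rot_le {D : Data} {u : ℂ → R4} (h : JH D u) {B : ℝ} (hB : ∀ x, ‖D.J x‖ ≤ B)
    (w : ℂ) {ζ : ℂ} (hζ : ‖ζ‖ = 1) :
    ‖fderiv ℝ u w ζ‖ ≤ (1 + B) * ‖fderiv ℝ u w 1‖ := by
  rw [JH_lin h w ζ]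
  exact norm_comb_le (abs_re_le_one hζ) (abs_im_le_one hζ) (hB _) _

theorem norm_le_rot {D : Data} {u : ℂ → R4} (h : JH D u) {B : ℝ} (hB : ∀ x, ‖D.J x‖ ≤ B)
    (w : ℂ) {ζ : ℂ} (hζ : ‖ζ‖ = 1) :
    ‖fderiv ℝ u w 1‖ ≤ (1 + B) * ‖fderiv ℝ u w ζ‖ := by
  have h1 : fderiv ℝ u w 1 = ζ.re • fderiv ℝ u w ζ + (-ζ.im) • D.J (u w) (fderiv ℝ u w ζ) := by
    rw [← JH_mul_I h, ← map_smul, ← map_smul, ← map_add]
    congr 1
    have h2 : ζ.re * ζ.re + ζ.im * ζ.im = 1 := by
      have := Complex.normSq_eq_norm_sq ζ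
      rw [hζ, Complex.normSq_apply] at this
      linarith
    apply Complex.ext
    · simp
      linarith
    · simp
      ring
  conv_lhs => rw [h1]
  exact norm_comb_le (abs_re_le_one hζ) (by rw [abs_neg]; exact abs_im_le_one hζ) (hB _) _

/-! ### the isoperimetric inequality -/

theorem ds_comp_pol {u : ℂ → R4} (hu : ContDiff ℝ ∞ u) (z : ℂ) (q : P2) :
    ds (fun q => u (pol z q)) q = fderiv ℝ u (pol z q) (Complex.exp (q.2 * Complex.I)) := by
  have h : HasFDerivAt (fun q => u (pol z q)) _ q :=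
    (smooth_diff hu (pol z q)).hasFDerivAt.comp q (hasFDerivAt_pol z q)
  rw [ds, h.fderiv]
  simp

theorem dt_comp_pol {u : ℂ → R4} (hu : ContDiff ℝ ∞ u) (z : ℂ) (q : P2) :
    dt (fun q => u (pol z q)) q =
      q.1 • fderiv ℝ u (pol z q) (Complex.I * Complex.exp (q.2 * Complex.I)) := by
  have h : HasFDerivAt (fun q => u (pol z q)) _ q :=
    (smooth_diff hu (pol z q)).hasFDerivAt.comp q (hasFDerivAt_pol z q)
  rw [dt, h.fderiv, ← map_smul]
  simp

theorem norm_exp_I (θ : ℝ) : ‖Complex.exp (θ * Complex.I)‖ = 1 := Complex.norm_exp_ofReal_mul_I θ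

theorem isop (D : Data) : ∃ K > 0, ∀ u : ℂ → R4, JH D u → ∀ (z : ℂ) (r : ℝ), 0 ≤ r →
    (∫ s in (0 : ℝ)..r, ∫ θ in (0 : ℝ)..2 * π, s * ‖fderiv ℝ u (pol z (s, θ)) 1‖ ^ 2) ≤
      K * (r * ∫ θ in (0 : ℝ)..2 * π, r * ‖fderiv ℝ u (pol z (r, θ)) 1‖ ^ 2) := by
  obtain ⟨c, hc, htame⟩ := tame_const D
  obtain ⟨B, hB⟩ := (bd_J D).bd0
  obtain ⟨Bp, hBp, hprim⟩ := prim_le D.om
  have hB0 : 0 ≤ B := (norm_nonneg _).trans (hB 0)
  have hpi := Real.pi_pos
  refine ⟨(1 + B) ^ 2 / c * (Bp * ((B * (1 + B)) ^ 2 * (2 * π))) + 1, by positivity,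
    fun u hu z r hr => ?_⟩
  set V : P2 → R4 := fun q => u (pol z q) with hV
  have hVs : ContDiff ℝ ∞ V := hu.1.comp (pol_smooth z)
  have hVc := hVs.continuous
  set p : R4 := V (r, 0) with hp
  have hst := stokes_rect hVs (prim_smooth D.om p) 0 0 r (2 * π)
  -- boundary terms
  have hb1 : (∫ x in (0 : ℝ)..r, -(prim D.om p (V (x, 2 * π)) (ds V (x, 2 * π)))) =
      ∫ x in (0 : ℝ)..r, -(prim D.om p (V (x, 0)) (ds V (x, 0))) := by
    refine intervalIntegral.integral_congr fun x _ => ?_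
    show -(prim D.om p (V (x, 2 * π)) (ds V (x, 2 * π))) =
      -(prim D.om p (V (x, 0)) (ds V (x, 0)))
    have e1 : V (x, 2 * π) = V (x, 0) := by
      rw [hV]
      simp only
      rw [pol_two_pi]
    have e2 : ds V (x, 2 * π) = ds V (x, 0) := by
      rw [hV, ds_comp_pol hu.1, ds_comp_pol hu.1, pol_two_pi]
      congr 1
      simp [Complex.exp_two_pi_mul_I]
    rw [e1, e2]
  have hb2 : (∫ y in (0 : ℝ)..2 * π, prim D.om p (V (0, y)) (dt V (0, y))) = 0 := by
    rw [intervalIntegral.integral_congr (g := fun _ => (0 : ℝ)) fun y _ => ?_]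
    · simp
    · simp only
      rw [hV, dt_comp_pol hu.1]
      simp
  rw [hb1, hb2, sub_self, zero_add, sub_zero] at hst
  simp only [prim_val] at hst
  -- continuity
  have hds : Continuous (ds V) := by
    have := (smooth_fderiv hVs).continuous
    exact this.clm_apply continuous_const
  have hdt : Continuous (dt V) := by
    have := (smooth_fderiv hVs).continuous
    exact this.clm_apply continuous_const
  have hux : Continuous fun q : P2 => ‖fderiv ℝ u (pol z q) 1‖ :=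
    (((smooth_fderiv hu.1).continuous.comp (pol_smooth z).continuous).clm_apply
      continuous_const).norm
  have hval : Continuous fun q : P2 => D.om.val (V q) (ds V q) (dt V q) := by
    unfold CForm.val
    have hl : Continuous fun q : P2 => fderiv ℝ D.om.lam (V q) :=
      (smooth_fderiv D.om.lam_smooth).continuous.comp hVc
    have hk : Continuous fun q : P2 => D.om.κ (ds V q) := D.om.κ.continuous.comp hds
    exact ((hk.clm_apply hdt).add ((hl.clm_apply hds).clm_apply hdt)).sub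
      ((hl.clm_apply hdt).clm_apply hds)
  -- lower bound
  have hlow : c / (1 + B) ^ 2 *
      (∫ s in (0 : ℝ)..r, ∫ θ in (0 : ℝ)..2 * π, s * ‖fderiv ℝ u (pol z (s, θ)) 1‖ ^ 2) ≤
      ∫ x in (0 : ℝ)..r, ∫ y in (0 : ℝ)..2 * π, D.om.val (V (x, y)) (ds V (x, y))
        (dt V (x, y)) := by
    rw [← intervalIntegral.integral_const_mul]
    have hc1 : Continuous fun s : ℝ => c / (1 + B) ^ 2 *
        ∫ θ in (0 : ℝ)..2 * π, s * ‖fderiv ℝ u (pol z (s, θ)) 1‖ ^ 2 := by
      refine continuous_const.mul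
        (intervalIntegral.continuous_parametric_intervalIntegral_of_continuous' ?_ _ _)
      exact continuous_fst.mul (hux.pow 2)
    have hc2 : Continuous fun x : ℝ =>
        ∫ y in (0 : ℝ)..2 * π, D.om.val (V (x, y)) (ds V (x, y)) (dt V (x, y)) :=
      intervalIntegral.continuous_parametric_intervalIntegral_of_continuous' hval _ _
    refine intervalIntegral.integral_mono_on hr (hc1.intervalIntegrable _ _)
      (hc2.intervalIntegrable _ _) fun s hs => ?_
    rw [← intervalIntegral.integral_const_mul]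
    refine intervalIntegral.integral_mono_on (by positivity) ?_ ?_ fun θ _ => ?_
    · refine Continuous.intervalIntegrable ?_ _ _
      have : Continuous fun θ : ℝ => ‖fderiv ℝ u (pol z (s, θ)) 1‖ :=
        hux.comp (by fun_prop : Continuous fun θ : ℝ => (s, θ))
      exact continuous_const.mul (continuous_const.mul (this.pow 2))
    · exact (hval.comp (by fun_prop : Continuous fun θ : ℝ => (s, θ))).intervalIntegrable _ _
    · rw [hV, ds_comp_pol hu.1, dt_comp_pol hu.1, JH_mul_I hu]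
      simp only
      set a := fderiv ℝ u (pol z (s, θ)) (Complex.exp (θ * Complex.I)) with ha
      have h1 := norm_le_rot hu hB (pol z (s, θ)) (norm_exp_I θ)
      have h2 := htame (u (pol z (s, θ))) a
      have h3 : D.om.val (u (pol z (s, θ))) a (s • D.J (u (pol z (s, θ))) a) =
          s * D.om.val (u (pol z (s, θ))) a (D.J (u (pol z (s, θ))) a) := by
        simp only [CForm.val, map_smul, smul_apply, smul_eq_mul]
        ring
      rw [h3]
      have h4 : ‖fderiv ℝ u (pol z (s, θ)) 1‖ ^ 2 ≤ (1 + B) ^ 2 * ‖a‖ ^ 2 := by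
        rw [← mul_pow]
        exact pow_le_pow_left₀ (norm_nonneg _) h1 2
      have h5 : c / (1 + B) ^ 2 * ‖fderiv ℝ u (pol z (s, θ)) 1‖ ^ 2 ≤ c * ‖a‖ ^ 2 := by
        calc c / (1 + B) ^ 2 * ‖fderiv ℝ u (pol z (s, θ)) 1‖ ^ 2
            ≤ c / (1 + B) ^ 2 * ((1 + B) ^ 2 * ‖a‖ ^ 2) :=
              mul_le_mul_of_nonneg_left h4 (by positivity)
          _ = c * ‖a‖ ^ 2 := by field_simp
      calc c / (1 + B) ^ 2 * (s * ‖fderiv ℝ u (pol z (s, θ)) 1‖ ^ 2)
          = s * (c / (1 + B) ^ 2 * ‖fderiv ℝ u (pol z (s, θ)) 1‖ ^ 2) := by ring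
        _ ≤ _ := mul_le_mul_of_nonneg_left (h5.trans h2) hs.1
  -- upper bound
  set L : ℝ := ∫ y in (0 : ℝ)..2 * π, ‖dt V (r, y)‖ with hL
  have hdtr : Continuous fun y : ℝ => dt V (r, y) :=
    hdt.comp (by fun_prop : Continuous fun y : ℝ => (r, y))
  have hosc : ∀ y ∈ Icc (0 : ℝ) (2 * π), ‖V (r, y) - p‖ ≤ L := by
    intro y hy
    have h1 : ∀ t, HasDerivAt (fun t => V (r, t)) (dt V (r, t)) t := by
      intro t
      have h2 := (smooth_diff hVs (r, t)).hasFDerivAt.comp_hasDerivAt t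
        ((hasDerivAt_const t r).prodMk (hasDerivAt_id t))
      exact h2
    have h2 := intervalIntegral.integral_eq_sub_of_hasDerivAt (a := 0) (b := y)
      (fun t _ => h1 t) (hdtr.intervalIntegrable _ _)
    rw [hp, ← h2]
    refine (intervalIntegral.norm_integral_le_integral_norm hy.1).trans ?_
    rw [hL, ← intervalIntegral.integral_add_adjacent_intervals
      (hdtr.norm.intervalIntegrable 0 y) (hdtr.norm.intervalIntegrable y (2 * π))]
    exact le_add_of_nonneg_right (intervalIntegral.integral_nonneg hy.2 fun t _ => norm_nonneg _)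
  have hL0 : 0 ≤ L := intervalIntegral.integral_nonneg (by positivity) fun t _ => norm_nonneg _
  have hup : (∫ y in (0 : ℝ)..2 * π, prim D.om p (V (r, y)) (dt V (r, y))) ≤ Bp * L * L := by
    rw [hL, ← intervalIntegral.integral_const_mul, ← hL]
    have hpc : Continuous fun y : ℝ => prim D.om p (V (r, y)) :=
      (prim_smooth D.om p).continuous.comp (hVc.comp (by fun_prop))
    refine intervalIntegral.integral_mono_on (by positivity)
      ((hpc.clm_apply hdtr).intervalIntegrable _ _)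
      ((continuous_const.mul hdtr.norm).intervalIntegrable _ _) fun y hy => ?_
    calc prim D.om p (V (r, y)) (dt V (r, y)) ≤ ‖prim D.om p (V (r, y)) (dt V (r, y))‖ :=
          le_abs_self _
      _ ≤ ‖prim D.om p (V (r, y))‖ * ‖dt V (r, y)‖ := ContinuousLinearMap.le_opNorm _ _
      _ ≤ (Bp * L) * ‖dt V (r, y)‖ := mul_le_mul_of_nonneg_right ((hprim _ _).trans
          (mul_le_mul_of_nonneg_left (hosc y hy) hBp)) (norm_nonneg _)
  -- the length
  have hux1 : Continuous fun y : ℝ => ‖fderiv ℝ u (pol z (r, y)) 1‖ :=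
    hux.comp (by fun_prop : Continuous fun θ : ℝ => (r, θ))
  have hLle : L ≤ r * (B * (1 + B)) * ∫ y in (0 : ℝ)..2 * π, ‖fderiv ℝ u (pol z (r, y)) 1‖ := by
    rw [hL, ← intervalIntegral.integral_const_mul]
    refine intervalIntegral.integral_mono_on (by positivity) (hdtr.norm.intervalIntegrable _ _)
      ((continuous_const.mul hux1).intervalIntegrable _ _) fun y _ => ?_
    rw [hV, dt_comp_pol hu.1, JH_mul_I hu, norm_smul, Real.norm_of_nonneg hr]
    simp only
    have h1 := norm_rot_le hu hB (pol z (r, y)) (norm_exp_I y)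
    have h2 := (D.J (u (pol z (r, y)))).le_opNorm
      (fderiv ℝ u (pol z (r, y)) (Complex.exp (y * Complex.I)))
    rw [mul_assoc]
    refine mul_le_mul_of_nonneg_left (h2.trans ?_) hr
    rw [mul_assoc]
    exact mul_le_mul (hB _) h1 (norm_nonneg _) hB0
  set e : ℝ := ∫ y in (0 : ℝ)..2 * π, ‖fderiv ℝ u (pol z (r, y)) 1‖ ^ 2 with he
  have he0 : 0 ≤ e := intervalIntegral.integral_nonneg (by positivity) fun t _ => sq_nonneg _
  have hcs := cs_interval hux1 (T := 2 * π) (by positivity)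
  have hL2 : L ^ 2 ≤ r ^ 2 * ((B * (1 + B)) ^ 2 * (2 * π)) * e := by
    calc L ^ 2 ≤ (r * (B * (1 + B)) *
          ∫ y in (0 : ℝ)..2 * π, ‖fderiv ℝ u (pol z (r, y)) 1‖) ^ 2 :=
          pow_le_pow_left₀ hL0 hLle 2
      _ = (r * (B * (1 + B))) ^ 2 *
          (∫ y in (0 : ℝ)..2 * π, ‖fderiv ℝ u (pol z (r, y)) 1‖) ^ 2 := mul_pow _ _ _
      _ ≤ (r * (B * (1 + B))) ^ 2 * (2 * π * e) := mul_le_mul_of_nonneg_left hcs (sq_nonneg _)
      _ = _ := by ring
  set E : ℝ := ∫ s in (0 : ℝ)..r, ∫ θ in (0 : ℝ)..2 * π,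
    s * ‖fderiv ℝ u (pol z (s, θ)) 1‖ ^ 2 with hE
  have h1 : c / (1 + B) ^ 2 * E ≤ Bp * (r ^ 2 * ((B * (1 + B)) ^ 2 * (2 * π)) * e) := by
    calc c / (1 + B) ^ 2 * E ≤ _ := hlow
      _ = _ := hst
      _ ≤ Bp * L * L := hup
      _ = Bp * L ^ 2 := by ring
      _ ≤ _ := mul_le_mul_of_nonneg_left hL2 hBp
  have h2 : E = (1 + B) ^ 2 / c * (c / (1 + B) ^ 2 * E) := by field_simp
  rw [intervalIntegral.integral_const_mul, ← he, h2]
  calc (1 + B) ^ 2 / c * (c / (1 + B) ^ 2 * E)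
      ≤ (1 + B) ^ 2 / c * (Bp * (r ^ 2 * ((B * (1 + B)) ^ 2 * (2 * π)) * e)) :=
        mul_le_mul_of_nonneg_left h1 (by positivity)
    _ = (1 + B) ^ 2 / c * (Bp * ((B * (1 + B)) ^ 2 * (2 * π))) * (r * (r * e)) := by ring
    _ ≤ _ := mul_le_mul_of_nonneg_right (by linarith) (by positivity)

end Vale.Agent.P247.H515
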