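import Vale.Agent.P272.K.H.Uniq
import Mathlib

/-! P247 / K2C, part 1: the gradient estimate `|Dw| ≤ C l^{-1/2} |l w - Δ w|` for bounded smooth
maps on `ℂ` with bounded derivatives, with values in any normed space. helper515. -/

open MeasureTheory Real Set Filter Topology
open scoped RealInnerProductSpace ContDiff

noncomputable section

set_option linter.unusedSectionVars false
set_option linter.unusedVariables false

namespace Vale.Agent.P247.H515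

open Vale.Agent.P272.K.LIN Vale.Agent.P272.K.H

variable {E V W : Type*} [NormedAddCommGroup E] [NormedSpace ℝ E] [NormedAddCommGroup V]
  [NormedSpace ℝ V] [NormedAddCommGroup W] [NormedSpace ℝ W]

/-- smooth with all derivatives bounded -/
structure Bd (w : E → V) : Prop where
  smooth : ContDiff ℝ ∞ w
  bd : ∀ k : ℕ, ∃ C, ∀ x, ‖iteratedFDeriv ℝ k w x‖ ≤ C

theorem Bd.fderiv {w : E → V} (h : Bd w) : Bd (fderiv ℝ w) :=
  ⟨h.smooth.fderiv_right (by norm_cast), fun k => by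
    obtain ⟨C, hC⟩ := h.bd (k + 1)
    exact ⟨C, fun x => by rw [norm_iteratedFDeriv_fderiv]; exact hC x⟩⟩

theorem Bd.clm {w : E → V} (h : Bd w) (L : V →L[ℝ] W) : Bd (fun x => L (w x)) :=
  ⟨L.contDiff.comp h.smooth, fun k => by
    obtain ⟨C, hC⟩ := h.bd k
    refine ⟨‖L‖ * C, fun x => ?_⟩
    have h1 := L.norm_iteratedFDeriv_comp_left (h.smooth.contDiffAt (x := x)) (n := k)
      (by exact_mod_cast le_top)
    exact h1.trans (mul_le_mul_of_nonneg_left (hC x) (norm_nonneg _))⟩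

theorem Bd.iter {w : E → V} (h : Bd w) (k : ℕ) : Bd (iteratedFDeriv ℝ k w) := by
  induction k with
  | zero =>
    rw [iteratedFDeriv_zero_eq_comp]
    exact h.clm (continuousMultilinearCurryFin0 ℝ E V).symm.toContinuousLinearEquiv.toContinuousLinearMap
  | succ k ih =>
    rw [iteratedFDeriv_succ_eq_comp_left]
    exact ih.fderiv.clm (continuousMultilinearCurryLeftEquiv ℝ (fun _ => E) V).symm.toContinuousLinearEquiv.toContinuousLinearMap

theorem Bd.bd0 {w : E → V} (h : Bd w) : ∃ C, ∀ x, ‖w x‖ ≤ C := by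
  obtain ⟨C, hC⟩ := h.bd 0
  exact ⟨C, fun x => by simpa using hC x⟩

theorem Bd.bd1 {w : E → V} (h : Bd w) : ∃ C, ∀ x, ‖_root_.fderiv ℝ w x‖ ≤ C := h.fderiv.bd0

/-- the Laplacian -/
def lap (w : ℂ → V) (x : ℂ) : V :=
  fderiv ℝ (fderiv ℝ w) x 1 1 + fderiv ℝ (fderiv ℝ w) x Complex.I Complex.I

/-- the trace -/
def trc : (ℂ →L[ℝ] ℂ →L[ℝ] V) →L[ℝ] V :=
  (ContinuousLinearMap.apply ℝ V (1 : ℂ)).comp (ContinuousLinearMap.apply ℝ (ℂ →L[ℝ] V) (1 : ℂ)) +
  (ContinuousLinearMap.apply ℝ V Complex.I).comp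
    (ContinuousLinearMap.apply ℝ (ℂ →L[ℝ] V) Complex.I)

theorem trc_apply (T : ℂ →L[ℝ] ℂ →L[ℝ] V) : trc T = T 1 1 + T Complex.I Complex.I := rfl

theorem lap_eq (w : ℂ → V) (x : ℂ) : lap w x = trc (fderiv ℝ (fderiv ℝ w) x) := rfl

theorem Bd.lap {w : ℂ → V} (h : Bd w) : Bd (lap w) := h.fderiv.fderiv.clm trc

theorem smooth_diff {w : E → V} (h : ContDiff ℝ ∞ w) : Differentiable ℝ w :=
  h.differentiable (by simp)

theorem smooth_fderiv {w : E → V} (h : ContDiff ℝ ∞ w) : ContDiff ℝ ∞ (fderiv ℝ w) :=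
  h.fderiv_right (by norm_cast)

theorem fderiv2_comp_clm {w : E → V} (h : ContDiff ℝ ∞ w) (L : V →L[ℝ] W) (x a b : E) :
    fderiv ℝ (fderiv ℝ (fun y => L (w y))) x a b = L (fderiv ℝ (fderiv ℝ w) x a b) := by
  have h1 : fderiv ℝ (fun y => L (w y)) = fun y => L.comp (fderiv ℝ w y) := by
    funext y
    exact (L.hasFDerivAt.comp y (smooth_diff h y).hasFDerivAt).fderiv
  rw [h1]
  have h2 : HasFDerivAt (fun y => L.comp (fderiv ℝ w y))
      (((ContinuousLinearMap.compL ℝ E V W) L).comp (fderiv ℝ (fderiv ℝ w) x)) x :=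
    ((ContinuousLinearMap.compL ℝ E V W) L).hasFDerivAt.comp x
      (smooth_diff (smooth_fderiv h) x).hasFDerivAt
  rw [h2.fderiv]
  rfl

theorem lap_clm {w : ℂ → V} (h : ContDiff ℝ ∞ w) (L : V →L[ℝ] W) (x : ℂ) :
    lap (fun y => L (w y)) x = L (lap w x) := by
  unfold lap
  rw [fderiv2_comp_clm h, fderiv2_comp_clm h, map_add]

theorem second_symm {w : E → V} (h : ContDiff ℝ ∞ w) (x a b : E) :
    fderiv ℝ (fderiv ℝ w) x a b = fderiv ℝ (fderiv ℝ w) x b a :=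
  (((h.of_le (by norm_cast : (2 : WithTop ℕ∞) ≤ ∞)).contDiffAt
    (x := x)).isSymmSndFDerivAt (by simp)) a b

theorem lap_fderiv {w : ℂ → V} (h : ContDiff ℝ ∞ w) (x : ℂ) :
    lap (fderiv ℝ w) x = fderiv ℝ (lap w) x := by
  have h1 := smooth_fderiv h
  have h2 := smooth_fderiv h1
  have h3 : HasFDerivAt (lap w)
      ((trc : (ℂ →L[ℝ] ℂ →L[ℝ] V) →L[ℝ] V).comp (fderiv ℝ (fderiv ℝ (fderiv ℝ w)) x)) x :=
    HasFDerivAt.comp (g := (trc : (ℂ →L[ℝ] ℂ →L[ℝ] V) →L[ℝ] V)) x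
      (trc : (ℂ →L[ℝ] ℂ →L[ℝ] V) →L[ℝ] V).hasFDerivAt (smooth_diff h2 x).hasFDerivAt
  rw [h3.fderiv]
  ext1 v
  have key : ∀ e : ℂ, fderiv ℝ (fderiv ℝ (fderiv ℝ w)) x e e v =
      fderiv ℝ (fderiv ℝ (fderiv ℝ w)) x v e e := by
    intro e
    have a1 : fderiv ℝ (fderiv ℝ (fderiv ℝ w)) x e e v =
        fderiv ℝ (fderiv ℝ (fderiv ℝ w)) x e v e := by
      have h4 : ∀ a b : ℂ, HasFDerivAt (fun y => fderiv ℝ (fderiv ℝ w) y a b)
          ((ContinuousLinearMap.apply ℝ V b).comp ((ContinuousLinearMap.apply ℝ (ℂ →L[ℝ] V) a).comp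
            (fderiv ℝ (fderiv ℝ (fderiv ℝ w)) x))) x := fun a b =>
        HasFDerivAt.comp (g := (ContinuousLinearMap.apply ℝ V b)) x
          (ContinuousLinearMap.apply ℝ V b).hasFDerivAt
          (HasFDerivAt.comp (g := (ContinuousLinearMap.apply ℝ (ℂ →L[ℝ] V) a)) x
            (ContinuousLinearMap.apply ℝ (ℂ →L[ℝ] V) a).hasFDerivAt
            (smooth_diff h2 x).hasFDerivAt)
      have h5 : (fun y => fderiv ℝ (fderiv ℝ w) y e v) = fun y => fderiv ℝ (fderiv ℝ w) y v e :=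
        funext fun y => second_symm h y e v
      have h6 := h4 e v
      rw [h5] at h6
      have h7 := congrArg (fun L : ℂ →L[ℝ] V => L e) (h6.unique (h4 v e))
      exact h7
    have a2 : fderiv ℝ (fderiv ℝ (fderiv ℝ w)) x e v = fderiv ℝ (fderiv ℝ (fderiv ℝ w)) x v e :=
      second_symm h1 x e v
    rw [a1, a2]
  show fderiv ℝ (fderiv ℝ (fderiv ℝ w)) x 1 1 v +
      fderiv ℝ (fderiv ℝ (fderiv ℝ w)) x Complex.I Complex.I v = _
  rw [key, key]
  rfl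

theorem smooth_iter {w : E → V} (h : ContDiff ℝ ∞ w) (k : ℕ) :
    ContDiff ℝ ∞ (iteratedFDeriv ℝ k w) :=
  h.iteratedFDeriv_right (by norm_cast)

theorem lap_iter {w : ℂ → V} (h : ContDiff ℝ ∞ w) (k : ℕ) :
    lap (iteratedFDeriv ℝ k w) = iteratedFDeriv ℝ k (lap w) := by
  induction k with
  | zero =>
    rw [iteratedFDeriv_zero_eq_comp, iteratedFDeriv_zero_eq_comp]
    funext x
    exact lap_clm h (continuousMultilinearCurryFin0 ℝ ℂ V).symm.toContinuousLinearEquiv.toContinuousLinearMap x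
  | succ k ih =>
    rw [iteratedFDeriv_succ_eq_comp_left, iteratedFDeriv_succ_eq_comp_left, ← ih]
    funext x
    have h1 := lap_clm (smooth_fderiv (smooth_iter h k))
      (continuousMultilinearCurryLeftEquiv ℝ (fun _ => ℂ) V).symm.toContinuousLinearEquiv.toContinuousLinearMap x
    refine h1.trans ?_
    rw [lap_fderiv (smooth_iter h k) x]
    rfl

/-! ### the gradient estimate -/

theorem half01 : (0 : ℝ) < 1 / 2 ∧ (1 / 2 : ℝ) < 1 := by norm_num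

/-- the constant -/
def gC : ℝ := (∫ z : ℂ, ‖Gk (q1 : ℂ → ℂ →L[ℝ] ℝ) z‖) * Real.Gamma (1 / 2)

theorem gC_nonneg : 0 ≤ gC := by
  have := L1_nonneg (Gk (q1 : ℂ → ℂ →L[ℝ] ℝ))
  have := Real.Gamma_pos_of_pos (by norm_num : (0 : ℝ) < 1 / 2)
  unfold gC
  positivity

theorem hb_of_bd {g : ℂ → ℝ} (h : Bd g) : ∃ A B, 0 ≤ B ∧ HB (1 / 2) g A B := by
  obtain ⟨A, hA⟩ := h.bd0
  obtain ⟨L, hL⟩ := h.bd1
  have hA0 : 0 ≤ A := (norm_nonneg _).trans (hA 0)
  have hL0 : 0 ≤ L := (norm_nonneg _).trans (hL 0)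
  refine ⟨A, 2 * A + L, by positivity, hA, fun x y => ?_⟩
  have h1 : ‖g x - g y‖ ≤ L * ‖x - y‖ :=
    Convex.norm_image_sub_le_of_norm_fderiv_le (fun z _ => smooth_diff h.smooth z)
      (fun z _ => hL z) convex_univ (mem_univ _) (mem_univ _)
  rcases le_total ‖x - y‖ 1 with h | h
  · have h2 : ‖x - y‖ ≤ ‖x - y‖ ^ (1 / 2 : ℝ) := by
      conv_lhs => rw [← Real.rpow_one ‖x - y‖]
      exact Real.rpow_le_rpow_of_exponent_ge_of_imp (norm_nonneg _) h (by norm_num)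
        (fun _ h => by norm_num at h)
    calc ‖g x - g y‖ ≤ L * ‖x - y‖ := h1
      _ ≤ L * ‖x - y‖ ^ (1 / 2 : ℝ) := mul_le_mul_of_nonneg_left h2 hL0
      _ ≤ _ := mul_le_mul_of_nonneg_right (by linarith) (by positivity)
  · have h2 : 1 ≤ ‖x - y‖ ^ (1 / 2 : ℝ) := Real.one_le_rpow h (by norm_num)
    calc ‖g x - g y‖ ≤ ‖g x‖ + ‖g y‖ := norm_sub_le _ _
      _ ≤ 2 * A := by linarith [hA x, hA y]
      _ ≤ 2 * A * ‖x - y‖ ^ (1 / 2 : ℝ) := le_mul_of_one_le_right (by linarith) h2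
      _ ≤ _ := mul_le_mul_of_nonneg_right (by linarith) (by positivity)

theorem Bd.sub {f g : E → V} (hf : Bd f) (hg : Bd g) : Bd (fun x => f x - g x) :=
  ⟨hf.smooth.sub hg.smooth, fun k => by
    obtain ⟨A, hA⟩ := hf.bd k
    obtain ⟨B, hB⟩ := hg.bd k
    refine ⟨A + B, fun x => ?_⟩
    have h1 : iteratedFDeriv ℝ k (fun x => f x - g x) x =
        iteratedFDeriv ℝ k f x - iteratedFDeriv ℝ k g x := by
      have := iteratedFDeriv_sub_apply (i := k) (x := x) (𝕜 := ℝ)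
        ((hf.smooth.of_le (by exact_mod_cast le_top : (k : WithTop ℕ∞) ≤ ∞)).contDiffAt)
        ((hg.smooth.of_le (by exact_mod_cast le_top : (k : WithTop ℕ∞) ≤ ∞)).contDiffAt)
      exact this
    rw [h1]
    exact (norm_sub_le _ _).trans (add_le_add (hA x) (hB x))⟩

theorem grad_real {w : ℂ → ℝ} (h : Bd w) {l A : ℝ} (hl : 0 < l)
    (hA : ∀ x, |l * w x - lap w x| ≤ A) (x : ℂ) :
    ‖fderiv ℝ w x‖ ≤ gC * l ^ (-(1 / 2) : ℝ) * A := by
  set g : ℂ → ℝ := fun x => l * w x - lap w x with hg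
  have hBg : Bd g := (h.clm (l • ContinuousLinearMap.id ℝ ℝ)).sub h.lap
  obtain ⟨A', B', hB', hHB⟩ := hb_of_bd hBg
  obtain ⟨M, hM⟩ := h.bd0
  obtain ⟨C, hC, hres⟩ := resolvent ℂ half01.1 half01.2
  obtain ⟨r1, r2, r3⟩ := hres l hl g A' B' hB' hHB
  have hb0 : (Complex.orthonormalBasisOneI 0 : ℂ) = 1 := by
    simp [Complex.coe_orthonormalBasisOneI]
  have hb1 : (Complex.orthonormalBasisOneI 1 : ℂ) = Complex.I := by
    simp [Complex.coe_orthonormalBasisOneI]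
  have hw : w = res l g := by
    have hr3 := fun x => r3.zero.sup x
    simp only [Real.norm_eq_abs] at hr3
    refine eq_of_op_eq (ι := Fin 2) Complex.orthonormalBasisOneI
      (h.smooth.of_le (by norm_cast)) hM r1 hr3 hl fun x => ?_
    · rw [r2 (Fin 2) Complex.orthonormalBasisOneI x, Fin.sum_univ_two, hb0, hb1]
      rfl
  have hd : HasFDerivAt w (res1 l g x) x := by
    rw [hw]
    exact hasFDerivAt_res half01.1 half01.2 hl hHB.sup hHB.hol x
  rw [hd.fderiv]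
  have h2 := norm_sint_le (k := Gk (q1 : ℂ → ℂ →L[ℝ] ℝ)) (f := g) (l := l) (β := 0) (γ := 0)
    (D := A * ∫ z : ℂ, ‖Gk q1 z‖) hl (by norm_num) x
    (fun s _ => by simpa using norm_avg_le (kern_Gk tg1) hA s x)
  rw [show ((0 : ℝ) + 0 + 1) / 2 = 1 / 2 by norm_num] at h2
  refine h2.trans (le_of_eq ?_)
  unfold gC
  ring

/-- **The gradient estimate**, values in any normed space. -/
theorem grad_bound {w : ℂ → V} (h : Bd w) {l A : ℝ} (hl : 0 < l)
    (hA : ∀ x, ‖l • w x - lap w x‖ ≤ A) (x : ℂ) :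
    ‖fderiv ℝ w x‖ ≤ gC * l ^ (-(1 / 2) : ℝ) * A := by
  have hA0 : 0 ≤ A := (norm_nonneg _).trans (hA 0)
  have hc : 0 ≤ gC * l ^ (-(1 / 2) : ℝ) * A :=
    mul_nonneg (mul_nonneg gC_nonneg (Real.rpow_nonneg hl.le _)) hA0
  refine ContinuousLinearMap.opNorm_le_bound _ hc fun v => ?_
  obtain ⟨φ, hφ, hφv⟩ := exists_dual_vector'' ℝ (fderiv ℝ w x v)
  have h1 : Bd (fun y => φ (w y)) := h.clm φ
  have h2 := grad_real h1 hl (A := A) (fun y => by
    rw [lap_clm h.smooth φ y]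
    have : l * φ (w y) - φ (lap w y) = φ (l • w y - lap w y) := by
      rw [map_sub, map_smul, smul_eq_mul]
    rw [this, ← Real.norm_eq_abs]
    calc ‖φ (l • w y - lap w y)‖ ≤ ‖φ‖ * ‖l • w y - lap w y‖ := φ.le_opNorm _
      _ ≤ 1 * A := mul_le_mul hφ (hA y) (norm_nonneg _) zero_le_one
      _ = A := one_mul A) x
  have h3 : fderiv ℝ (fun y => φ (w y)) x v = φ (fderiv ℝ w x v) := by
    have : HasFDerivAt (fun y => φ (w y)) (φ.comp (fderiv ℝ w x)) x :=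
      φ.hasFDerivAt.comp x (smooth_diff h.smooth x).hasFDerivAt
    rw [this.fderiv]; rfl
  have h4 := (fderiv ℝ (fun y => φ (w y)) x).le_opNorm v
  rw [h3, hφv] at h4
  have h5 : ‖((‖fderiv ℝ w x v‖ : ℝ) : ℝ)‖ = ‖fderiv ℝ w x v‖ := norm_norm _
  have h6 : ‖fderiv ℝ w x v‖ ≤ ‖fderiv ℝ (fun y => φ (w y)) x‖ * ‖v‖ := by
    simpa using h4
  exact h6.trans (mul_le_mul_of_nonneg_right h2 (norm_nonneg _))

end Vale.Agent.P247.H515
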