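import Vale.Agent.P247.H515.B2

/-! P247 / K2B: small energy on small discs, from the isoperimetric inequality. helper515. -/

open MeasureTheory Real Set Filter Topology Metric
open scoped ContDiff

noncomputable section

set_option linter.unusedSectionVars false
set_option linter.unusedVariables false

namespace Vale.Agent.P247.H515

open Vale.Agent.P247.H74

theorem setIntegral_rect {h : P2 → ℝ} (hc : Continuous h) {a a' b b' : ℝ} (ha : a ≤ a')
    (hb : b ≤ b') : ∫ p in Icc a a' ×ˢ Icc b b', h p = ∫ y in b..b', ∫ x in a..a', h (x, y) := by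
  have hi : IntegrableOn h (Icc a a' ×ˢ Icc b b') :=
    hc.continuousOn.integrableOn_compact (isCompact_Icc.prod isCompact_Icc)
  rw [Measure.volume_eq_prod, ← Measure.prod_restrict, integral_prod_symm _ (by
    rw [Measure.prod_restrict, ← Measure.volume_eq_prod]; exact hi),
    intervalIntegral.integral_of_le hb, integral_Icc_eq_integral_Ioc]
  refine setIntegral_congr_fun measurableSet_Ioc fun y _ => ?_
  rw [intervalIntegral.integral_of_le ha, integral_Icc_eq_integral_Ioc]

theorem integral_disc_le_rect {F : ℂ → ℝ} (hF : Continuous F) (h0 : ∀ w, 0 ≤ F w) (z : ℂ) :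
    ∫ w in closedBall z 1, F w ≤
      ∫ y in (z.im - 1)..(z.im + 1), ∫ x in (z.re - 1)..(z.re + 1), F (x + y * Complex.I) := by
  set R : Set P2 := Icc (z.re - 1) (z.re + 1) ×ˢ Icc (z.im - 1) (z.im + 1) with hR
  have h1 : ∫ w in closedBall z 1, F w =
      ∫ p : P2, (closedBall z 1).indicator F (p.1 + p.2 * Complex.I) := by
    rw [← integral_indicator measurableSet_closedBall,
      ← (Complex.volume_preserving_equiv_real_prod.symm).integral_comp
        Complex.measurableEquivRealProd.symm.measurableEmbedding]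
    refine integral_congr_ae (Eventually.of_forall fun p => ?_)
    simp only [Complex.measurableEquivRealProd_symm_apply]
    congr 1
    apply Complex.ext <;> simp
  have hc : Continuous fun p : P2 => F (p.1 + p.2 * Complex.I) := by
    refine hF.comp ?_
    fun_prop
  have hint : IntegrableOn (fun p : P2 => F (p.1 + p.2 * Complex.I)) R :=
    hc.continuousOn.integrableOn_compact (isCompact_Icc.prod isCompact_Icc)
  have h2 : (∫ p : P2, (closedBall z 1).indicator F (p.1 + p.2 * Complex.I)) ≤
      ∫ p : P2, R.indicator (fun p : P2 => F (p.1 + p.2 * Complex.I)) p := by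
    refine integral_mono_of_nonneg (Eventually.of_forall fun p => ?_)
      ((integrable_indicator_iff (measurableSet_Icc.prod measurableSet_Icc)).2 hint)
      (Eventually.of_forall fun p => ?_)
    · exact indicator_nonneg (fun w _ => h0 w) _
    · by_cases hp : (p.1 + p.2 * Complex.I : ℂ) ∈ closedBall z 1
      · have h3 : p ∈ R := by
          rw [mem_closedBall, dist_eq_norm] at hp
          have h4 := (Complex.abs_re_le_norm _).trans hp
          have h5 := (Complex.abs_im_le_norm _).trans hp
          simp only [Complex.sub_re, Complex.add_re, Complex.ofReal_re, Complex.mul_re,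
            Complex.I_re, mul_zero, Complex.ofReal_im, Complex.I_im, mul_one, sub_self,
            add_zero, Complex.sub_im, Complex.add_im, Complex.mul_im, zero_add] at h4 h5
          rw [abs_le] at h4 h5
          exact ⟨⟨by linarith, by linarith⟩, ⟨by linarith, by linarith⟩⟩
        simp only
        rw [indicator_of_mem hp, indicator_of_mem h3]
      · simp only
        rw [indicator_of_notMem hp]
        exact indicator_nonneg (fun w _ => h0 _) _
  rw [integral_indicator (measurableSet_Icc.prod measurableSet_Icc), setIntegral_rect hc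
    (by linarith) (by linarith)] at h2
  rw [h1]
  exact h2

theorem int_disc_le {g : P2 → ℝ} (hg : Continuous g) (hp : Per g) (h0 : ∀ p, 0 ≤ g p) {τ : ℂ}
    (hτ : 0 < τ.im) (z : ℂ) :
    ∫ w in closedBall z 1, g (coordL τ w) ≤ 2 * (2 + τ.im) * mean g := by
  have hF : Continuous fun w => g (coordL τ w) := hg.comp (coordL τ).continuous
  refine (integral_disc_le_rect hF (fun w => h0 _) z).trans ?_
  -- the mean over `s`
  set G : ℝ → ℝ := fun t => ∫ s in (0 : ℝ)..1, g (s, t) with hG
  have hGc : Continuous G :=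
    intervalIntegral.continuous_parametric_intervalIntegral_of_continuous'
      (by exact hg.comp (continuous_snd.prodMk continuous_fst)) _ _
  have hG0 : ∀ t, 0 ≤ G t := fun t =>
    intervalIntegral.integral_nonneg zero_le_one fun s _ => h0 _
  have hGp : Function.Periodic G 1 := fun t => by
    show (∫ s in (0 : ℝ)..1, g (s, t + 1)) = ∫ s in (0 : ℝ)..1, g (s, t)
    refine intervalIntegral.integral_congr fun s _ => ?_
    have := hp 0 1 (s, t)
    simpa using this
  have hmean : mean g = ∫ t in (0 : ℝ)..1, G t := by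
    have h1 : Icc (0 : P2) 1 = Icc (0 : ℝ) 1 ×ˢ Icc (0 : ℝ) 1 := by
      rw [Icc_prod_Icc]; rfl
    rw [mean, h1, setIntegral_rect hg zero_le_one zero_le_one]
  have hin : ∀ y : ℝ, (∫ x in (z.re - 1)..(z.re + 1), g (coordL τ (x + y * Complex.I))) =
      2 * G (y / τ.im) := by
    intro y
    set c : ℝ := τ.re * (y / τ.im) with hc
    have h1 : ∀ x : ℝ, coordL τ (x + y * Complex.I) = (x - c, y / τ.im) := by
      intro x
      rw [coordL_apply, coord]
      simp [hc]
    simp only [h1]
    have hφ : Function.Periodic (fun x : ℝ => g (x - c, y / τ.im)) 1 := by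
      intro x
      have := hp 1 0 (x - c, y / τ.im)
      simp only [Int.cast_one, Int.cast_zero, add_zero] at this
      show g (x + 1 - c, y / τ.im) = g (x - c, y / τ.im)
      rw [← this]
      congr 2
      ring
    have hφc : Continuous fun x : ℝ => g (x - c, y / τ.im) := hg.comp (by fun_prop)
    have h2 := hφ.intervalIntegral_add_zsmul_eq 2 (z.re - 1)
      (fun t₁ t₂ => hφc.intervalIntegrable _ _)
    have h3 : z.re - 1 + (2 : ℤ) • (1 : ℝ) = z.re + 1 := by
      simp
      ring
    have h4 : (∫ x in c..c + 1, g (x - c, y / τ.im)) = G (y / τ.im) := by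
      rw [intervalIntegral.integral_comp_sub_right (fun x => g (x, y / τ.im)) c, sub_self,
        add_sub_cancel_left]
    rw [h3, hφ.intervalIntegral_add_eq (z.re - 1) c, h4] at h2
    rw [h2]
    simp
  simp only [hin]
  rw [intervalIntegral.integral_const_mul, intervalIntegral.integral_comp_div G hτ.ne']
  -- the outer integral
  set a : ℝ := (z.im - 1) / τ.im with ha
  set b : ℝ := (z.im + 1) / τ.im with hb
  have hab : b - a = 2 / τ.im := by rw [ha, hb]; field_simp; ring
  have h2τ : 0 ≤ 2 / τ.im := by positivity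
  set N : ℤ := ⌈2 / τ.im⌉ with hN
  have hN1 : 2 / τ.im ≤ N := Int.le_ceil _
  have hN2 : (N : ℝ) < 2 / τ.im + 1 := Int.ceil_lt_add_one _
  have hi : ∀ t₁ t₂, IntervalIntegrable G volume t₁ t₂ := fun _ _ => hGc.intervalIntegrable _ _
  have h4 : (∫ t in a..b, G t) ≤ N * ∫ t in (0 : ℝ)..1, G t := by
    have h5 := hGp.intervalIntegral_add_zsmul_eq N a hi
    rw [hGp.intervalIntegral_add_eq a 0, zero_add, zsmul_eq_mul, zsmul_eq_mul, mul_one] at h5
    rw [← h5, ← intervalIntegral.integral_add_adjacent_intervals (hi a b) (hi b (a + N))]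
    exact le_add_of_nonneg_right (intervalIntegral.integral_nonneg (by linarith) fun t _ => hG0 t)
  have hm0 : 0 ≤ ∫ t in (0 : ℝ)..1, G t :=
    intervalIntegral.integral_nonneg zero_le_one fun t _ => hG0 t
  rw [hmean, smul_eq_mul]
  have h6 : (∫ t in a..b, G t) ≤ (2 / τ.im + 1) * ∫ t in (0 : ℝ)..1, G t :=
    h4.trans (mul_le_mul_of_nonneg_right hN2.le hm0)
  calc 2 * (τ.im * ∫ t in a..b, G t) ≤ 2 * (τ.im * ((2 / τ.im + 1) * ∫ t in (0 : ℝ)..1, G t)) := by
        gcongr
    _ = 2 * (2 + τ.im) * ∫ t in (0 : ℝ)..1, G t := by field_simp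

theorem fderiv_up_one {f : P2 → R4} (hf : ContDiff ℝ ∞ f) (τ w : ℂ) :
    fderiv ℝ (up f τ) w 1 = ds (phi f) (coordL τ w) := by
  rw [fderiv_up hf, ContinuousLinearMap.comp_apply, coordL_one, ds]

theorem ds_phi_per {f : P2 → R4} (hf : ContDiff ℝ ∞ f) (hp : Per f) : Per (ds (phi f)) := by
  have h1 : ∀ p, ds (phi f) p = linL (1, 0) + fderiv ℝ f p (1, 0) := fun p => by
    have : phi f = fun p => linL p + f p := funext fun p => by rw [phi, linL_apply]
    have h2 : HasFDerivAt (fun p => linL p + f p) (linL + fderiv ℝ f p) p :=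
      linL.hasFDerivAt.add (smooth_diff hf p).hasFDerivAt
    rw [ds, this, h2.fderiv]
    rfl
  intro m n p
  rw [h1, h1]
  have h2 : (fun q : P2 => f (q + ((m : ℝ), (n : ℝ)))) = f := by
    funext q
    exact hp m n q
  have h3 := fderiv_comp_add_right (𝕜 := ℝ) (f := f) (x := p) ((m : ℝ), (n : ℝ))
  rw [h2] at h3
  have h4 : (p.1 + (m : ℝ), p.2 + (n : ℝ)) = p + ((m : ℝ), (n : ℝ)) := rfl
  rw [h4, ← h3]

/-- **K2b** -/
theorem K2b (ha : K2a_statement) : K2b_statement := by
  intro D ε hε
  obtain ⟨C, hC, ha⟩ := ha D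
  obtain ⟨K, hK, hisop⟩ := isop D
  set C' : ℝ := 2 * (2 + C) * C with hC'
  have hC'0 : 0 < C' := by positivity
  set ρ : ℝ := min 1 ((ε / C') ^ K) with hρ
  have hρ0 : 0 < ρ := lt_min zero_lt_one (by positivity)
  have hρ1 : ρ ≤ 1 := min_le_left _ _
  refine ⟨ρ, hρ0, fun f τ hJT z => ?_⟩
  obtain ⟨h1, h2, h3⟩ := ha f τ hJT
  have hJH := JH_up hJT
  have hux : Continuous fun w => ‖fderiv ℝ (up f τ) w 1‖ ^ 2 :=
    (((smooth_fderiv hJH.1).continuous.clm_apply continuous_const).norm).pow 2
  -- energy on the unit disc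
  have hE1 : ∫ w in closedBall z 1, ‖fderiv ℝ (up f τ) w 1‖ ^ 2 ≤ C' := by
    have hdsc : Continuous (ds (phi f)) :=
      (smooth_fderiv (phi_smooth hJT.smooth)).continuous.clm_apply continuous_const
    have h4 := int_disc_le (g := fun p => ‖ds (phi f) p‖ ^ 2) (hdsc.norm.pow 2)
      (fun m n p => by simp only [ds_phi_per hJT.smooth hJT.per m n p]) (fun p => sq_nonneg _)
      hJT.im_pos z
    simp only [fderiv_up_one hJT.smooth]
    refine h4.trans ?_
    have h5 : τ.im ≤ C := ((le_abs_self _).trans (Complex.abs_im_le_norm τ)).trans h2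
    have h6 : 0 < τ.im := hJT.im_pos
    have h7 : 0 ≤ mean fun p => ‖ds (phi f) p‖ ^ 2 :=
      setIntegral_nonneg measurableSet_Icc fun p _ => sq_nonneg _
    calc 2 * (2 + τ.im) * (mean fun p => ‖ds (phi f) p‖ ^ 2)
        ≤ 2 * (2 + C) * C := mul_le_mul (by linarith) h3 h7 (by positivity)
      _ = C' := rfl
  rw [polar_disc hux z zero_le_one] at hE1
  rw [polar_disc hux z hρ0.le]
  have hFc : Continuous fun s : ℝ => ∫ θ in (0 : ℝ)..2 * π,
      s * ‖fderiv ℝ (up f τ) (pol z (s, θ)) 1‖ ^ 2 := by
    refine intervalIntegral.continuous_parametric_intervalIntegral_of_continuous' ?_ _ _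
    exact continuous_fst.mul (hux.comp (pol_smooth z).continuous)
  have hdec := decay hFc hK (fun r hr => hisop (up f τ) hJH z r hr.1.le) hρ0 hρ1
  refine hdec.trans ?_
  have h8 : ρ ^ (1 / K) ≤ ε / C' := by
    calc ρ ^ (1 / K) ≤ ((ε / C') ^ K) ^ (1 / K) :=
          Real.rpow_le_rpow hρ0.le (min_le_right _ _) (by positivity)
      _ = ε / C' := by
          rw [← Real.rpow_mul (by positivity), mul_one_div_cancel hK.ne', Real.rpow_one]
  calc ρ ^ (1 / K) * _ ≤ ρ ^ (1 / K) * C' :=
        mul_le_mul_of_nonneg_left hE1 (Real.rpow_nonneg hρ0.le _)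
    _ ≤ ε / C' * C' := mul_le_mul_of_nonneg_right h8 hC'0.le
    _ = ε := by field_simp

end Vale.Agent.P247.H515
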