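import Vale.Agent.P247.H515.Grad
import Vale.Agent.P247.H74.Sta

/-! P247 / K2C: bounds for all derivatives of `J`-holomorphic tori from the gradient bound.
helper515. -/

open MeasureTheory Real Set Filter Topology
open scoped ContDiff

noncomputable section

set_option linter.unusedSectionVars false
set_option linter.unusedVariables false

namespace Vale.Agent.P247.H515

open Vale.Agent.P247.H74

section gen

variable {E V W V₁ V₂ V₃ : Type*} [NormedAddCommGroup E] [NormedSpace ℝ E] [NormedAddCommGroup V]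
  [NormedSpace ℝ V] [NormedAddCommGroup W] [NormedSpace ℝ W] [NormedAddCommGroup V₁]
  [NormedSpace ℝ V₁] [NormedAddCommGroup V₂] [NormedSpace ℝ V₂] [NormedAddCommGroup V₃]
  [NormedSpace ℝ V₃]

theorem bd_of_cover {f : E → V} (hf : ContDiff ℝ ∞ f) {K : Set E} (hK : IsCompact K)
    (h : ∀ x, ∃ a, x + a ∈ K ∧ ∀ y, f (y + a) = f y) : Bd f := by
  refine ⟨hf, fun k => ?_⟩
  have hc : Continuous (iteratedFDeriv ℝ k f) := (smooth_iter hf k).continuous
  obtain ⟨C, hC⟩ := hK.exists_bound_of_continuousOn hc.continuousOn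
  refine ⟨C, fun x => ?_⟩
  obtain ⟨a, ha, hp⟩ := h x
  have : iteratedFDeriv ℝ k f x = iteratedFDeriv ℝ k f (x + a) := by
    have := iteratedFDeriv_comp_add_right (𝕜 := ℝ) (f := f) k a
    rw [show (fun z => f (z + a)) = f from funext hp] at this
    exact this x
  rw [this]; exact hC _ ha

/-- bounded below order `k`, and at most linear in `S` at order `k` -/
structure Ord (k : ℕ) (K S : ℝ) (g : E → V) : Prop where
  smooth : ContDiff ℝ ∞ g
  lt : ∀ j < k, ∀ x, ‖iteratedFDeriv ℝ j g x‖ ≤ K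
  top : ∀ x, ‖iteratedFDeriv ℝ k g x‖ ≤ K * (1 + S)

theorem Ord.bil {k : ℕ} (hk : 1 ≤ k) {K1 K2 S : ℝ} (hS : 0 ≤ S) {f : E → V₁} {g : E → V₂}
    (hf : Ord k K1 S f) (hg : Ord k K2 S g) (B : V₁ →L[ℝ] V₂ →L[ℝ] V₃) :
    Ord k (‖B‖ * (2 ^ k * (K1 * K2))) S (fun x => B (f x) (g x)) := by
  have h1 : 0 ≤ K1 := (norm_nonneg _).trans (hf.lt 0 hk 0)
  have h2 : 0 ≤ K2 := (norm_nonneg _).trans (hg.lt 0 hk 0)
  have key : ∀ (j : ℕ) (T : ℝ) (x : E), j ≤ k → (∀ i ≤ j, ‖iteratedFDeriv ℝ i f x‖ *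
      ‖iteratedFDeriv ℝ (j - i) g x‖ ≤ T) → ‖iteratedFDeriv ℝ j (fun x => B (f x) (g x)) x‖ ≤
      ‖B‖ * (2 ^ k * T) := by
    intro j T x hj hT
    have hT0 : 0 ≤ T := (mul_nonneg (norm_nonneg _) (norm_nonneg _)).trans (hT 0 (Nat.zero_le _))
    have h3 := B.norm_iteratedFDeriv_le_of_bilinear hf.smooth hg.smooth x (n := j)
      (by exact_mod_cast le_top)
    refine h3.trans (mul_le_mul_of_nonneg_left ?_ (norm_nonneg B))
    calc ∑ i ∈ Finset.range (j + 1), (j.choose i : ℝ) * ‖iteratedFDeriv ℝ i f x‖ *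
          ‖iteratedFDeriv ℝ (j - i) g x‖
        ≤ ∑ i ∈ Finset.range (j + 1), (j.choose i : ℝ) * T := by
          refine Finset.sum_le_sum fun i hi => ?_
          rw [mul_assoc]
          exact mul_le_mul_of_nonneg_left (hT i (Nat.lt_succ_iff.1 (Finset.mem_range.1 hi)))
            (Nat.cast_nonneg _)
      _ = 2 ^ j * T := by
          rw [← Finset.sum_mul]
          congr 1
          exact_mod_cast Nat.sum_range_choose j
      _ ≤ 2 ^ k * T := mul_le_mul_of_nonneg_right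
          (pow_le_pow_right₀ (by norm_num) hj) hT0
  have hs1 : ∀ a : ℝ, 0 ≤ a → a ≤ a * (1 + S) := fun a ha => by nlinarith
  refine ⟨?_, fun j hj x => ?_, fun x => ?_⟩
  · exact (B.contDiff.comp hf.smooth).clm_apply hg.smooth
  · refine key j _ x hj.le fun i hi => ?_
    exact mul_le_mul (hf.lt i (hi.trans_lt hj) x) (hg.lt (j - i) (by omega) x) (norm_nonneg _) h1
  · have := key k (K1 * K2 * (1 + S)) x le_rfl fun i hi => ?_
    · calc _ ≤ _ := this
        _ = _ := by ring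
    · rcases Nat.eq_zero_or_pos i with rfl | hi0
      · rw [Nat.sub_zero, mul_assoc]
        exact mul_le_mul (hf.lt 0 hk x) (hg.top x) (norm_nonneg _) h1
      · rcases hi.eq_or_lt with rfl | hlt
        · rw [Nat.sub_self, mul_right_comm]
          exact mul_le_mul (hf.top x) (hg.lt 0 hk x) (norm_nonneg _)
            (mul_nonneg h1 (by linarith))
        · exact (mul_le_mul (hf.lt i hlt x) (hg.lt (k - i) (by omega) x) (norm_nonneg _) h1).trans
            (hs1 _ (mul_nonneg h1 h2))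

theorem Ord.app {k : ℕ} (hk : 1 ≤ k) {K1 K2 S : ℝ} (hS : 0 ≤ S) {A : E → V →L[ℝ] W} {v : E → V}
    (hA : Ord k K1 S A) (hv : Ord k K2 S v) :
    Ord k (2 ^ k * (K1 * K2)) S (fun x => A x (v x)) := by
  have h1 : 0 ≤ K1 := (norm_nonneg _).trans (hA.lt 0 hk 0)
  have h2 : 0 ≤ K2 := (norm_nonneg _).trans (hv.lt 0 hk 0)
  have h := Ord.bil hk hS hA hv (ContinuousLinearMap.id ℝ (V →L[ℝ] W))
  have h3 : ‖ContinuousLinearMap.id ℝ (V →L[ℝ] W)‖ * (2 ^ k * (K1 * K2)) ≤ 2 ^ k * (K1 * K2) :=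
    mul_le_of_le_one_left (by positivity) ContinuousLinearMap.norm_id_le
  exact ⟨h.smooth, fun j hj x => (h.lt j hj x).trans h3, fun x => (h.top x).trans
    (mul_le_mul_of_nonneg_right h3 (by linarith))⟩

theorem Ord.clm {k : ℕ} {K S : ℝ} (hS : 0 ≤ S) {v : E → V} (hK : 0 ≤ K) (hv : Ord k K S v)
    (L : V →L[ℝ] W) : Ord k (‖L‖ * K) S (fun x => L (v x)) := by
  have key : ∀ (j : ℕ) (x : E), ‖iteratedFDeriv ℝ j (fun x => L (v x)) x‖ ≤
      ‖L‖ * ‖iteratedFDeriv ℝ j v x‖ := fun j x =>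
    L.norm_iteratedFDeriv_comp_left (hv.smooth.contDiffAt (x := x)) (n := j)
      (by exact_mod_cast le_top)
  refine ⟨L.contDiff.comp hv.smooth, fun j hj x => (key j x).trans
    (mul_le_mul_of_nonneg_left (hv.lt j hj x) (norm_nonneg _)), fun x => (key k x).trans ?_⟩
  rw [mul_assoc]
  exact mul_le_mul_of_nonneg_left (hv.top x) (norm_nonneg _)

theorem Ord.sub {k : ℕ} {K1 K2 S : ℝ} {f g : E → V}
    (hf : Ord k K1 S f) (hg : Ord k K2 S g) : Ord k (K1 + K2) S (fun x => f x - g x) := by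
  have key : ∀ (j : ℕ) (x : E), iteratedFDeriv ℝ j (fun x => f x - g x) x =
      iteratedFDeriv ℝ j f x - iteratedFDeriv ℝ j g x := by
    intro j x
    have := iteratedFDeriv_sub_apply (i := j) (x := x) (𝕜 := ℝ)
      ((hf.smooth.of_le (by exact_mod_cast le_top : (j : WithTop ℕ∞) ≤ ∞)).contDiffAt)
      ((hg.smooth.of_le (by exact_mod_cast le_top : (j : WithTop ℕ∞) ≤ ∞)).contDiffAt)
    exact this
  refine ⟨hf.smooth.sub hg.smooth, fun j hj x => ?_, fun x => ?_⟩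
  · rw [key]; exact (norm_sub_le _ _).trans (add_le_add (hf.lt j hj x) (hg.lt j hj x))
  · rw [key, add_mul]; exact (norm_sub_le _ _).trans (add_le_add (hf.top x) (hg.top x))

/-- absorbing -/
theorem absorb {g : E → ℝ} {S₀ a : ℝ} (h0 : ∀ x, g x ≤ S₀)
    (h : ∀ S, 0 ≤ S → (∀ x, g x ≤ S) → ∀ x, g x ≤ a + S / 2) (hg : ∀ x, 0 ≤ g x) :
    ∀ x, g x ≤ 2 * a := by
  have hb : BddAbove (range g) := ⟨S₀, by rintro _ ⟨x, rfl⟩; exact h0 x⟩
  have h1 : ∀ x, g x ≤ ⨆ y, g y := fun x => le_ciSup hb x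
  have h2 := h (⨆ y, g y) ((hg 0).trans (h1 0)) h1
  have h3 : (⨆ y, g y) ≤ a + (⨆ y, g y) / 2 := ciSup_le h2
  intro x
  linarith [h1 x]

/-! ### the Laplace equation -/

variable {J : V → V →L[ℝ] V}

/-- the right hand side -/
def rhs (J : V → V →L[ℝ] V) (u : ℂ → V) (z : ℂ) : V :=
  fderiv ℝ J (u z) (fderiv ℝ u z Complex.I) (fderiv ℝ u z 1) -
    fderiv ℝ J (u z) (fderiv ℝ u z 1) (fderiv ℝ u z Complex.I)

theorem hasFDerivAt_app (hJ : ContDiff ℝ ∞ J) {u w : ℂ → V} (hu : ContDiff ℝ ∞ u)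
    (hw : ContDiff ℝ ∞ w) (z : ℂ) (a : ℂ) :
    fderiv ℝ (fun y => J (u y) (w y)) z a =
      J (u z) (fderiv ℝ w z a) + fderiv ℝ J (u z) (fderiv ℝ u z a) (w z) := by
  have h1 : HasFDerivAt (fun y => J (u y)) ((fderiv ℝ J (u z)).comp (fderiv ℝ u z)) z :=
    HasFDerivAt.comp (g := J) z (smooth_diff hJ (u z)).hasFDerivAt (smooth_diff hu z).hasFDerivAt
  have h2 := h1.clm_apply (smooth_diff hw z).hasFDerivAt
  rw [h2.fderiv]
  rfl

theorem hess_apply {u : ℂ → V} (hu : ContDiff ℝ ∞ u) (z a b : ℂ) :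
    fderiv ℝ (fun y => fderiv ℝ u y b) z a = fderiv ℝ (fderiv ℝ u) z a b := by
  have h1 : HasFDerivAt (fun y => fderiv ℝ u y b)
      ((ContinuousLinearMap.apply ℝ V b).comp (fderiv ℝ (fderiv ℝ u) z)) z :=
    HasFDerivAt.comp (g := ContinuousLinearMap.apply ℝ V b) z
      (ContinuousLinearMap.apply ℝ V b).hasFDerivAt
      (smooth_diff (smooth_fderiv hu) z).hasFDerivAt
  rw [h1.fderiv]
  rfl

theorem lap_eq_rhs (hJ : ContDiff ℝ ∞ J) (hJ2 : ∀ x v, J x (J x v) = -v) {u : ℂ → V}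
    (hu : ContDiff ℝ ∞ u) (he : ∀ z, fderiv ℝ u z Complex.I = J (u z) (fderiv ℝ u z 1)) (z : ℂ) :
    lap u z = rhs J u z := by
  have e1 : (fun y => fderiv ℝ u y Complex.I) = fun y => J (u y) (fderiv ℝ u y 1) := funext he
  have e2 : (fun y => fderiv ℝ u y 1) = fun y => -(J (u y) (fderiv ℝ u y Complex.I)) := by
    funext y
    rw [he, hJ2, neg_neg]
  have s1 : ∀ a : ℂ, ContDiff ℝ ∞ fun y => fderiv ℝ u y a := fun a =>
    (smooth_fderiv hu).clm_apply contDiff_const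
  have d1 : fderiv ℝ (fderiv ℝ u) z Complex.I Complex.I =
      J (u z) (fderiv ℝ (fderiv ℝ u) z Complex.I 1) +
        fderiv ℝ J (u z) (fderiv ℝ u z Complex.I) (fderiv ℝ u z 1) := by
    rw [← hess_apply hu, e1, hasFDerivAt_app hJ hu (s1 1), hess_apply hu]
  have d2 : fderiv ℝ (fderiv ℝ u) z 1 1 =
      -(J (u z) (fderiv ℝ (fderiv ℝ u) z 1 Complex.I) +
        fderiv ℝ J (u z) (fderiv ℝ u z 1) (fderiv ℝ u z Complex.I)) := by
    rw [← hess_apply hu z 1 1, e2, fderiv_fun_neg, neg_apply,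
      hasFDerivAt_app hJ hu (s1 Complex.I), hess_apply hu]
  rw [lap, d1, d2, second_symm hu z Complex.I 1, rhs]
  abel

/-! ### the estimate -/

theorem fderiv_lin_add {v : ℂ → V} (hv : ContDiff ℝ ∞ v) (Q : ℂ →L[ℝ] V) :
    fderiv ℝ (fun z => Q z + v z) = fun z => Q + fderiv ℝ v z := by
  funext z
  exact (Q.hasFDerivAt.add (smooth_diff hv z).hasFDerivAt).fderiv

theorem lap_lin_add {v : ℂ → V} (hv : ContDiff ℝ ∞ v) (Q : ℂ →L[ℝ] V) (z : ℂ) :
    lap (fun z => Q z + v z) z = lap v z := by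
  unfold lap
  rw [fderiv_lin_add hv, fderiv_const_add]

/-- **Higher derivatives from the gradient bound.** -/
theorem higher (hJ : Bd J) (hJ2 : ∀ x v, J x (J x v) = -v) (M : ℝ) (k : ℕ) (hk : 1 ≤ k) :
    ∃ C, 0 ≤ C ∧ ∀ (Q : ℂ →L[ℝ] V) (v : ℂ → V), Bd v → ‖Q‖ ≤ M →
      (∀ z, ‖Q + fderiv ℝ v z‖ ≤ M) →
      (∀ z, (Q + fderiv ℝ v z) Complex.I = J (Q z + v z) ((Q + fderiv ℝ v z) 1)) →
      ∀ j, 1 ≤ j → j ≤ k → ∀ z, ‖iteratedFDeriv ℝ j v z‖ ≤ C := by
  induction k, hk using Nat.le_induction with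
  | base =>
    refine ⟨2 * |M|, by positivity, fun Q v hv hQ hM he j h1 h2 z => ?_⟩
    obtain rfl : j = 1 := le_antisymm h2 h1
    rw [← norm_iteratedFDeriv_fderiv (n := 0), norm_iteratedFDeriv_zero]
    calc ‖fderiv ℝ v z‖ = ‖(Q + fderiv ℝ v z) - Q‖ := by rw [add_sub_cancel_left]
      _ ≤ ‖Q + fderiv ℝ v z‖ + ‖Q‖ := norm_sub_le _ _
      _ ≤ M + M := add_le_add (hM z) hQ
      _ ≤ 2 * |M| := by linarith [le_abs_self M]
  | succ k hk ih =>
    obtain ⟨C, hC, ih⟩ := ih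
    -- bounds for the derivatives of `J'`
    have hJ' := hJ.fderiv
    choose cJ hcJ using hJ'.bd
    obtain ⟨CJ, hCJ0, hCJ⟩ : ∃ CJ : ℝ, 0 ≤ CJ ∧ ∀ i ≤ k, ∀ x,
        ‖iteratedFDeriv ℝ i (fderiv ℝ J) x‖ ≤ CJ := by
      refine ⟨∑ i ∈ Finset.range (k + 1), |cJ i|, Finset.sum_nonneg fun _ _ => abs_nonneg _,
        fun i hi x => ?_⟩
      exact ((hcJ i x).trans (le_abs_self _)).trans (Finset.single_le_sum
        (f := fun i => |cJ i|) (fun _ _ => abs_nonneg _) (Finset.mem_range.2 (by omega)))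
    -- a bound for the first derivatives
    set Dd : ℝ := 1 + |M| + C with hDd
    have hDd1 : 1 ≤ Dd := by have := abs_nonneg M; linarith
    set KG : ℝ := k.factorial * CJ * Dd ^ k with hKG
    have hKG0 : 0 ≤ KG := by positivity
    set KP : ℝ := Dd with hKP
    set KF : ℝ := 2 ^ k * (2 ^ k * (KG * KP) * KP) + 2 ^ k * (2 ^ k * (KG * KP) * KP) with hKF
    have hKF0 : 0 ≤ KF := by positivity
    -- choice of `l`
    obtain ⟨l, hl, hlK⟩ : ∃ l : ℝ, 0 < l ∧ gC * l ^ (-(1 / 2) : ℝ) * KF ≤ 1 / 2 := by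
      have ht : Tendsto (fun l : ℝ => gC * l ^ (-(1 / 2) : ℝ) * KF) atTop (𝓝 (gC * 0 * KF)) :=
        ((tendsto_rpow_neg_atTop (by norm_num : (0 : ℝ) < 1 / 2)).const_mul gC).mul_const KF
      rw [mul_zero, zero_mul] at ht
      obtain ⟨l, h1, h2⟩ := ((ht.eventually (ge_mem_nhds (by norm_num : (0 : ℝ) < 1 / 2))).and
        (eventually_gt_atTop 0)).exists
      exact ⟨l, h2, h1⟩
    set a : ℝ := gC * l ^ (-(1 / 2) : ℝ) * (l * C + KF) with ha
    have hgl : 0 ≤ gC * l ^ (-(1 / 2) : ℝ) := mul_nonneg gC_nonneg (Real.rpow_nonneg hl.le _)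
    have ha0 : 0 ≤ a := by positivity
    refine ⟨C + 2 * a, by positivity, fun Q v hv hQ hM he j h1 h2 => ?_⟩
    have hlow := ih Q v hv hQ hM he
    rcases h2.lt_or_eq with h2 | rfl
    · intro z
      exact (hlow j h1 (Nat.lt_succ_iff.1 h2) z).trans (by linarith)
    -- the top order
    have main : ∀ z, ‖iteratedFDeriv ℝ (k + 1) v z‖ ≤ 2 * a := by
      obtain ⟨S₀, hS₀⟩ := hv.bd (k + 1)
      refine absorb hS₀ (fun S hS hSb => ?_) fun _ => norm_nonneg _
      set u : ℂ → V := fun z => Q z + v z with hu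
      have hus : ContDiff ℝ ∞ u := Q.contDiff.add hv.smooth
      have hdu : fderiv ℝ u = fun z => Q + fderiv ℝ v z := fderiv_lin_add hv.smooth Q
      have hdus : ContDiff ℝ ∞ (fderiv ℝ u) := smooth_fderiv hus
      -- derivatives of `P = Du`
      have hPj : ∀ i, 1 ≤ i → ∀ z, ‖iteratedFDeriv ℝ i (fderiv ℝ u) z‖ =
          ‖iteratedFDeriv ℝ (i + 1) v z‖ := by
        intro i hi z
        rw [← norm_iteratedFDeriv_fderiv, hdu]
        obtain ⟨i, rfl⟩ : ∃ i', i = i' + 1 := ⟨i - 1, by omega⟩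
        rw [← norm_iteratedFDeriv_fderiv (f := fun z => Q + fderiv ℝ v z),
          ← norm_iteratedFDeriv_fderiv (f := fderiv ℝ v),
          show fderiv ℝ (fun z => Q + fderiv ℝ v z) = fderiv ℝ (fderiv ℝ v) from
            funext fun z => fderiv_const_add _]
      have hP0 : ∀ z, ‖fderiv ℝ u z‖ ≤ |M| := fun z => by
        rw [hdu]; exact (hM z).trans (le_abs_self _)
      have hPlow : ∀ i < k, ∀ z, ‖iteratedFDeriv ℝ i (fderiv ℝ u) z‖ ≤ Dd := by
        intro i hi z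
        rcases Nat.eq_zero_or_pos i with rfl | hi0
        · rw [norm_iteratedFDeriv_zero]; linarith [hP0 z]
        · rw [hPj i hi0]
          have := hlow (i + 1) (by omega) (by omega) z
          have := abs_nonneg M
          linarith
      have hP : Ord k KP S (fderiv ℝ u) := by
        refine ⟨hdus, hPlow, fun z => ?_⟩
        rw [hPj k hk]
        have h3 := hSb z
        have h4 : S ≤ KP * (1 + S) := by nlinarith
        exact h3.trans h4
      -- `G = J'(u)`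
      have hG : Ord k KG S (fun z => fderiv ℝ J (u z)) := by
        have hGj : ∀ i ≤ k, ∀ z, ‖iteratedFDeriv ℝ i (fun z => fderiv ℝ J (u z)) z‖ ≤ KG := by
          intro i hi z
          have h3 := norm_iteratedFDeriv_comp_le (g := fderiv ℝ J) (f := u) (n := i) (N := ∞)
            hJ'.smooth hus (by exact_mod_cast le_top) z (C := CJ) (D := Dd)
            (fun q hq => hCJ q (hq.trans hi) _) (fun q hq1 hq2 => ?_)
          · refine h3.trans ?_
            rw [hKG]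
            have h4 : (i.factorial : ℝ) ≤ k.factorial := by exact_mod_cast Nat.factorial_le hi
            have h5 : Dd ^ i ≤ Dd ^ k := pow_le_pow_right₀ hDd1 hi
            gcongr
          · obtain ⟨q, rfl⟩ : ∃ q', q = q' + 1 := ⟨q - 1, by omega⟩
            rw [← norm_iteratedFDeriv_fderiv]
            exact (hPlow q (by omega) z).trans (le_self_pow₀ hDd1 (by omega))
        exact ⟨hJ'.smooth.comp hus, fun j hj z => hGj j hj.le z, fun z =>
          (hGj k le_rfl z).trans (by nlinarith)⟩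
      have happ : ∀ b : ℂ, ‖b‖ ≤ 1 → Ord k KP S (fun z => fderiv ℝ u z b) := by
        intro b hb
        have h3 := Ord.clm hS (by linarith : (0 : ℝ) ≤ KP) hP (ContinuousLinearMap.apply ℝ V b)
        have h4 : ‖ContinuousLinearMap.apply ℝ V b‖ ≤ 1 := by
          refine ContinuousLinearMap.opNorm_le_bound _ zero_le_one fun T => ?_
          rw [one_mul]
          exact (T.le_opNorm b).trans (mul_le_of_le_one_right (norm_nonneg _) hb)
        have h5 : ‖ContinuousLinearMap.apply ℝ V b‖ * KP ≤ KP :=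
          mul_le_of_le_one_left (by linarith) h4
        exact ⟨h3.smooth, fun j hj x => (h3.lt j hj x).trans h5, fun x => (h3.top x).trans
          (mul_le_mul_of_nonneg_right h5 (by linarith))⟩
      have hF : Ord k KF S (rhs J u) :=
        (((hG.app hk hS (happ Complex.I (by simp))).app hk hS (happ 1 (by simp))).sub
          ((hG.app hk hS (happ 1 (by simp))).app hk hS (happ Complex.I (by simp))))
      have hlapv : lap v = rhs J u := by
        funext z
        rw [← lap_lin_add hv.smooth Q z]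
        refine lap_eq_rhs hJ.smooth hJ2 hus (fun z => ?_) z
        rw [hdu]
        exact he z
      intro z
      have h6 := grad_bound (hv.iter k) hl (A := l * C + KF * (1 + S)) (fun z => by
        rw [lap_iter hv.smooth k, hlapv]
        calc ‖l • iteratedFDeriv ℝ k v z - iteratedFDeriv ℝ k (rhs J u) z‖
            ≤ ‖l • iteratedFDeriv ℝ k v z‖ + ‖iteratedFDeriv ℝ k (rhs J u) z‖ := norm_sub_le _ _
          _ ≤ l * C + KF * (1 + S) := by
              rw [norm_smul, Real.norm_of_nonneg hl.le]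
              exact add_le_add (mul_le_mul_of_nonneg_left (hlow k hk le_rfl z) hl.le)
                (hF.top z)) z
      have h7 : ‖iteratedFDeriv ℝ (k + 1) v z‖ = ‖fderiv ℝ (iteratedFDeriv ℝ k v) z‖ :=
        (norm_fderiv_iteratedFDeriv).symm
      rw [h7]
      refine h6.trans ?_
      have h8 : gC * l ^ (-(1 / 2) : ℝ) * (l * C + KF * (1 + S)) =
          a + (gC * l ^ (-(1 / 2) : ℝ) * KF) * S := by rw [ha]; ring
      rw [h8]
      have h9 : (gC * l ^ (-(1 / 2) : ℝ) * KF) * S ≤ 1 / 2 * S :=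
        mul_le_mul_of_nonneg_right hlK hS
      linarith
    intro z
    exact (main z).trans (by linarith)

theorem norm_iter_comp_clm {f : V → W} (hf : ContDiff ℝ ∞ f) (L : E →L[ℝ] V) (k : ℕ) (x : E) :
    ‖iteratedFDeriv ℝ k (fun y => f (L y)) x‖ ≤ ‖iteratedFDeriv ℝ k f (L x)‖ * ‖L‖ ^ k := by
  have h1 : iteratedFDeriv ℝ k (fun y => f (L y)) x =
      (iteratedFDeriv ℝ k f (L x)).compContinuousLinearMap fun _ => L :=
    L.iteratedFDeriv_comp_right hf x (i := k) (by exact_mod_cast le_top)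
  rw [h1]
  refine (ContinuousMultilinearMap.norm_compContinuousLinearMap_le _ _).trans (le_of_eq ?_)
  rw [Finset.prod_const, Finset.card_univ, Fintype.card_fin]

theorem Bd.comp_clm {f : V → W} (hf : Bd f) (L : E →L[ℝ] V) : Bd (fun y => f (L y)) :=
  ⟨hf.smooth.comp L.contDiff, fun k => by
    obtain ⟨C, hC⟩ := hf.bd k
    exact ⟨C * ‖L‖ ^ k, fun x => (norm_iter_comp_clm hf.smooth L k x).trans
      (mul_le_mul_of_nonneg_right (hC _) (by positivity))⟩⟩

end gen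

/-! ### tori -/

/-- `(s, t) ↦ s + τ t` -/
def cinv (τ : ℂ) : P2 →L[ℝ] ℂ :=
  (ContinuousLinearMap.fst ℝ ℝ ℝ).smulRight (1 : ℂ) + (ContinuousLinearMap.snd ℝ ℝ ℝ).smulRight τ

/-- `coord` as a linear map -/
def coordL (τ : ℂ) : ℂ →L[ℝ] P2 :=
  (Complex.reCLM - (τ.re / τ.im) • Complex.imCLM).prod ((1 / τ.im) • Complex.imCLM)

/-- `lin` as a linear map -/
def linL : P2 →L[ℝ] R4 :=
  (ContinuousLinearMap.fst ℝ ℝ ℝ).smulRight (e 2) + (ContinuousLinearMap.snd ℝ ℝ ℝ).smulRight (e 3)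

theorem linL_apply (p : P2) : linL p = lin p := by
  ext i
  fin_cases i <;> simp [linL, lin, e]

theorem cinv_apply (τ : ℂ) (p : P2) : cinv τ p = p.1 + p.2 * τ := by
  simp [cinv]

theorem coordL_apply (τ z : ℂ) : coordL τ z = coord τ z := by
  simp only [coordL, coord, ContinuousLinearMap.prod_apply, sub_apply,
    smul_apply, Complex.reCLM_apply, Complex.imCLM_apply, smul_eq_mul]
  ext <;> simp <;> ring

theorem coordL_one (τ : ℂ) : coordL τ 1 = (1, 0) := by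
  rw [coordL_apply]; simp [coord]

theorem coordL_I (τ : ℂ) : coordL τ Complex.I = (-(τ.re / τ.im), 1 / τ.im) := by
  rw [coordL_apply]
  ext <;> simp [coord, div_eq_mul_inv]

theorem coord_cinv {τ : ℂ} (h : 0 < τ.im) (p : P2) : coordL τ (cinv τ p) = p := by
  rw [coordL_apply, cinv_apply]
  have : τ.im ≠ 0 := h.ne'
  ext
  · simp [coord]; field_simp; ring
  · simp [coord]; field_simp

theorem norm_cinv_le (τ : ℂ) : ‖cinv τ‖ ≤ 1 + ‖τ‖ := by
  refine ContinuousLinearMap.opNorm_le_bound _ (by positivity) fun p => ?_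
  rw [cinv_apply]
  have h1 : ‖(p.1 : ℂ)‖ ≤ ‖p‖ := by
    rw [Complex.norm_real]; exact norm_fst_le p
  have h2 : ‖(p.2 : ℂ)‖ ≤ ‖p‖ := by
    rw [Complex.norm_real]; exact norm_snd_le p
  calc ‖(p.1 : ℂ) + p.2 * τ‖ ≤ ‖(p.1 : ℂ)‖ + ‖(p.2 : ℂ)‖ * ‖τ‖ := by
        rw [← norm_mul]; exact norm_add_le _ _
    _ ≤ ‖p‖ + ‖p‖ * ‖τ‖ := add_le_add h1 (mul_le_mul_of_nonneg_right h2 (norm_nonneg _))
    _ = _ := by ring

theorem norm_linL_le : ‖linL‖ ≤ 1 := by
  refine ContinuousLinearMap.opNorm_le_bound _ zero_le_one fun p => ?_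
  rw [one_mul, linL_apply, pi_norm_le_iff_of_nonneg (norm_nonneg _)]
  have h1 := norm_fst_le p
  have h2 := norm_snd_le p
  have h3 := norm_nonneg p
  intro i
  fin_cases i
  · simp [lin]
  · simp [lin]
  · simpa [lin] using h1
  · simpa [lin] using h2

theorem norm_coordL_le {τ : ℂ} {C : ℝ} (hC : 0 < C) (h1 : 1 / C ≤ τ.im) (h2 : ‖τ‖ ≤ C) :
    ‖coordL τ‖ ≤ 1 + C * C + C := by
  have him : 0 < τ.im := lt_of_lt_of_le (by positivity) h1
  have h3 : 1 / τ.im ≤ C := by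
    rw [div_le_iff₀ him]
    rw [div_le_iff₀ hC] at h1
    linarith
  refine ContinuousLinearMap.opNorm_le_bound _ (by positivity) fun z => ?_
  rw [coordL_apply]
  have hre := Complex.abs_re_le_norm z
  have him' := Complex.abs_im_le_norm z
  have hz := norm_nonneg z
  have hτ := (Complex.abs_re_le_norm τ).trans h2
  have h4 : |z.im / τ.im| ≤ C * ‖z‖ := by
    rw [abs_div, abs_of_pos him, div_eq_mul_one_div, mul_comm]
    exact mul_le_mul h3 him' (abs_nonneg _) hC.le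
  rw [Prod.norm_def]
  refine max_le ?_ ?_
  · show |z.re - τ.re * (z.im / τ.im)| ≤ _
    calc |z.re - τ.re * (z.im / τ.im)| ≤ |z.re| + |τ.re| * |z.im / τ.im| := by
          rw [← abs_mul]; exact abs_sub _ _
      _ ≤ ‖z‖ + C * (C * ‖z‖) := add_le_add hre (mul_le_mul hτ h4 (abs_nonneg _) hC.le)
      _ ≤ _ := by nlinarith [mul_nonneg hC.le hz]
  · show |z.im / τ.im| ≤ _
    exact h4.trans (by nlinarith [mul_nonneg (mul_nonneg hC.le hC.le) hz])

theorem bd_J (D : Data) : Bd D.J := by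
  refine bd_of_cover D.J_smooth (isCompact_Icc (a := (0 : R4)) (b := 1)) fun x =>
    ⟨fun i => ((-⌊x i⌋ : ℤ) : ℝ), ⟨fun i => ?_, fun i => ?_⟩, fun y => ?_⟩
  · have := Int.floor_le (x i)
    simp only [Pi.zero_apply, Pi.add_apply]
    push_cast
    linarith
  · have := Int.lt_floor_add_one (x i)
    simp only [Pi.one_apply, Pi.add_apply]
    push_cast
    linarith
  · exact D.J_per (fun i => -⌊x i⌋) y

theorem bd_per {V : Type*} [NormedAddCommGroup V] [NormedSpace ℝ V] {f : P2 → V}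
    (hf : ContDiff ℝ ∞ f) (hp : Per f) : Bd f := by
  refine bd_of_cover hf (isCompact_Icc (a := (0 : P2)) (b := 1)) fun x =>
    ⟨(((-⌊x.1⌋ : ℤ) : ℝ), ((-⌊x.2⌋ : ℤ) : ℝ)), ⟨⟨?_, ?_⟩, ⟨?_, ?_⟩⟩, fun y => ?_⟩
  · have := Int.floor_le x.1
    show (0 : ℝ) ≤ x.1 + ((-⌊x.1⌋ : ℤ) : ℝ)
    push_cast
    linarith
  · have := Int.floor_le x.2
    show (0 : ℝ) ≤ x.2 + ((-⌊x.2⌋ : ℤ) : ℝ)
    push_cast
    linarith
  · have := Int.lt_floor_add_one x.1
    show x.1 + ((-⌊x.1⌋ : ℤ) : ℝ) ≤ 1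
    push_cast
    linarith
  · have := Int.lt_floor_add_one x.2
    show x.2 + ((-⌊x.2⌋ : ℤ) : ℝ) ≤ 1
    push_cast
    linarith
  · exact hp (-⌊x.1⌋) (-⌊x.2⌋) y

theorem up_eq (f : P2 → R4) (τ z : ℂ) : up f τ z = (linL.comp (coordL τ)) z + f (coordL τ z) := by
  rw [up, phi, ← coordL_apply, ContinuousLinearMap.comp_apply, linL_apply]

theorem phi_smooth {f : P2 → R4} (hf : ContDiff ℝ ∞ f) : ContDiff ℝ ∞ (phi f) := by
  have : phi f = fun p => linL p + f p := funext fun p => by rw [phi, linL_apply]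
  rw [this]
  exact linL.contDiff.add hf

theorem fderiv_up {f : P2 → R4} (hf : ContDiff ℝ ∞ f) (τ z : ℂ) :
    fderiv ℝ (up f τ) z = (fderiv ℝ (phi f) (coordL τ z)).comp (coordL τ) := by
  have h1 : up f τ = fun z => phi f (coordL τ z) := funext fun z => by rw [up, coordL_apply]
  rw [h1]
  exact ((smooth_diff (phi_smooth hf) (coordL τ z)).hasFDerivAt.comp z
    (coordL τ).hasFDerivAt).fderiv

theorem up_smooth {f : P2 → R4} (hf : ContDiff ℝ ∞ f) (τ : ℂ) : ContDiff ℝ ∞ (up f τ) := by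
  have h1 : up f τ = fun z => phi f (coordL τ z) := funext fun z => by rw [up, coordL_apply]
  rw [h1]
  exact (phi_smooth hf).comp (coordL τ).contDiff

theorem fderiv_P2 (T : P2 →L[ℝ] R4) (a b : ℝ) : T (a, b) = a • T (1, 0) + b • T (0, 1) := by
  rw [← map_smul, ← map_smul, ← map_add]
  congr 1
  ext <;> simp

/-- the map `up f τ` is `J`-holomorphic -/
theorem JH_up {D : Data} {f : P2 → R4} {τ : ℂ} (h : JT D f τ) : JH D (up f τ) := by
  refine ⟨up_smooth h.smooth τ, fun z => ?_⟩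
  have him : τ.im ≠ 0 := h.im_pos.ne'
  rw [fderiv_up h.smooth, ContinuousLinearMap.comp_apply, ContinuousLinearMap.comp_apply, coordL_I,
    coordL_one, fderiv_P2]
  have h1 := h.eq (coordL τ z)
  rw [dt, ds] at h1
  rw [h1, up, ← coordL_apply, smul_add, smul_smul, smul_smul, ← add_assoc, ← add_smul]
  have h2 : -(τ.re / τ.im) + 1 / τ.im * τ.re = 0 := by field_simp; ring
  have h3 : 1 / τ.im * τ.im = 1 := by field_simp
  rw [h2, h3, zero_smul, zero_add, one_smul]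

theorem norm_fderiv_phi_le {f : P2 → R4} {C : ℝ} {p : P2} (h1 : ‖ds (phi f) p‖ ≤ C)
    (h2 : ‖dt (phi f) p‖ ≤ C) : ‖fderiv ℝ (phi f) p‖ ≤ 2 * C := by
  have hC : 0 ≤ C := (norm_nonneg _).trans h1
  refine ContinuousLinearMap.opNorm_le_bound _ (by positivity) fun q => ?_
  obtain ⟨a, b⟩ := q
  rw [fderiv_P2]
  have ha : ‖a‖ ≤ ‖((a, b) : P2)‖ := norm_fst_le ((a, b) : P2)
  have hb : ‖b‖ ≤ ‖((a, b) : P2)‖ := norm_snd_le ((a, b) : P2)
  calc ‖a • fderiv ℝ (phi f) p (1, 0) + b • fderiv ℝ (phi f) p (0, 1)‖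
      ≤ ‖a‖ * ‖ds (phi f) p‖ + ‖b‖ * ‖dt (phi f) p‖ := by
        rw [ds, dt, ← norm_smul, ← norm_smul]; exact norm_add_le _ _
    _ ≤ ‖((a, b) : P2)‖ * C + ‖((a, b) : P2)‖ * C :=
        add_le_add (mul_le_mul ha h1 (norm_nonneg _) (norm_nonneg _))
          (mul_le_mul hb h2 (norm_nonneg _) (norm_nonneg _))
    _ = _ := by ring

/-- **K2c** -/
theorem K2c (ha : K2a_statement) (hg : K2g_statement) : K2c_statement := by
  intro D k hk
  obtain ⟨Ca, hCa, ha⟩ := ha D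
  obtain ⟨Cg, hCg, hg⟩ := hg D
  set cL : ℝ := 1 + Ca * Ca + Ca with hcL
  have hcL0 : 0 ≤ cL := by positivity
  obtain ⟨C, hC, hh⟩ := higher (bd_J D) (D.J_sq) (cL + 2 * Cg * cL) k hk
  refine ⟨C * (1 + Ca) ^ k, fun f τ hJT p => ?_⟩
  obtain ⟨h1, h2, -⟩ := ha f τ hJT
  have hc := norm_coordL_le hCa h1 h2
  set Q : ℂ →L[ℝ] R4 := linL.comp (coordL τ) with hQ
  set v : ℂ → R4 := fun z => f (coordL τ z) with hv
  have hBv : Bd v := (bd_per hJT.smooth hJT.per).comp_clm (coordL τ)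
  have hup : up f τ = fun z => Q z + v z := funext fun z => up_eq f τ z
  have hdup : ∀ z, fderiv ℝ (up f τ) z = Q + fderiv ℝ v z := fun z => by
    rw [hup, fderiv_lin_add hBv.smooth]
  have hJH := JH_up hJT
  have hQn : ‖Q‖ ≤ cL + 2 * Cg * cL := by
    have h3 : ‖Q‖ ≤ ‖linL‖ * ‖coordL τ‖ := ContinuousLinearMap.opNorm_comp_le _ _
    have h4 : ‖linL‖ * ‖coordL τ‖ ≤ 1 * cL :=
      mul_le_mul norm_linL_le hc (norm_nonneg _) zero_le_one
    have h5 : 0 ≤ 2 * Cg * cL := by positivity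
    linarith
  have hbd := hh Q v hBv hQn (fun z => by
    rw [← hdup z, fderiv_up hJT.smooth]
    have h3 := ContinuousLinearMap.opNorm_comp_le (fderiv ℝ (phi f) (coordL τ z)) (coordL τ)
    obtain ⟨g1, g2⟩ := hg f τ hJT (coordL τ z)
    have h4 := norm_fderiv_phi_le g1 g2
    have h5 : ‖fderiv ℝ (phi f) (coordL τ z)‖ * ‖coordL τ‖ ≤ 2 * Cg * cL :=
      mul_le_mul h4 hc (norm_nonneg _) (by positivity)
    linarith) (fun z => by
    have := hJH.2 z
    rw [hdup z, hup] at this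
    exact this) k hk le_rfl
  have hf : f = fun p => v (cinv τ p) := funext fun p => by
    rw [hv]
    show f p = f (coordL τ (cinv τ p))
    rw [coord_cinv hJT.im_pos]
  rw [hf]
  refine (norm_iter_comp_clm hBv.smooth (cinv τ) k p).trans ?_
  have h6 : ‖cinv τ‖ ^ k ≤ (1 + Ca) ^ k :=
    pow_le_pow_left₀ (norm_nonneg _) ((norm_cinv_le τ).trans (by linarith)) k
  exact mul_le_mul (hbd _) h6 (by positivity) hC

end Vale.Agent.P247.H515
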